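import Vale.Agent.P284Z.F0.Ops
import Vale.Agent.P272.K.N.Hess

/-!
# P284Z, block F0: smooth plurisubharmonic functions
-/

set_option linter.unusedVariables false

open scoped Topology ComplexOrder
open Filter Set Metric MeasureTheory Real

noncomputable section

namespace Vale.Agent.P284Z

open Vale.Agent.P272.K

section levi
variable {W : Type} [NormedAddCommGroup W] [NormedSpace ℝ W] {u P : W → ℝ} {U : Set W} {z : W}

theorem diff_fderiv (hu : ContDiffAt ℝ 2 u z) : DifferentiableAt ℝ (fderiv ℝ u) z :=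
  (hu.fderiv_right (m := 1) (by norm_num)).differentiableAt one_ne_zero

theorem hess_symm (hu : ContDiffAt ℝ 2 u z) (v w : W) :
    fderiv ℝ (fderiv ℝ u) z v w = fderiv ℝ (fderiv ℝ u) z w v :=
  hu.isSymmSndFDerivAt (by simp) v w

theorem taylor2 (hu : ContDiffAt ℝ 2 u z) {η : ℝ} (hη : 0 < η) : ∀ᶠ x in 𝓝 z,
    |u x - u z - fderiv ℝ u z (x - z) - fderiv ℝ (fderiv ℝ u) z (x - z) (x - z) / 2| ≤
      η * ‖x - z‖ ^ 2 := by
  obtain ⟨δ, hδ, h⟩ := nhds_basis_ball.eventually_iff.1 (hu.eventually (by simp))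
  set B := fderiv ℝ (fderiv ℝ u) z with hB
  have key := (convex_ball z δ).isLittleO_pow_succ (n := 1) (mem_ball_self hδ)
    (f := fun x => u x - fderiv ℝ u z (x - z) - 2⁻¹ * B (x - z) (x - z))
    (f' := fun x => fderiv ℝ u x - fderiv ℝ u z - B (x - z)) (fun x hx => by
      have a := (hasFDerivAt_id (𝕜 := ℝ) x).sub_const z
      refine (((((h hx).differentiableAt two_ne_zero).hasFDerivAt.sub
        ((fderiv ℝ u z).hasFDerivAt.comp x a)).sub
        (((B.hasFDerivAt.comp x a).clm_apply a).const_mul 2⁻¹)).congr_fderiv ?_).hasFDerivWithinAt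
      ext v
      simp [hB, hess_symm hu v]
      ring)
    (by simpa using ((diff_fderiv hu).hasFDerivAt.isLittleO.mono nhdsWithin_le_nhds).norm_right)
  rw [nhdsWithin_eq_nhds.2 (ball_mem_nhds z hδ)] at key
  refine (key.def hη).mono fun x hx => ?_
  rw [norm_eq_abs, norm_eq_abs, abs_of_nonneg (a := ‖x - z‖ ^ _) (by positivity)] at hx
  refine le_of_eq_of_le (congrArg _ ?_) hx
  simp
  ring

variable [NormedSpace ℂ W] [IsScalarTower ℝ ℂ W]

/-- four times the Levi form -/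
def levi (u : W → ℝ) (z w : W) : ℝ :=
  fderiv ℝ (fderiv ℝ u) z w w + fderiv ℝ (fderiv ℝ u) z (Complex.I • w) (Complex.I • w)

theorem smul_re_im (ζ : ℂ) (w : W) : ζ • w = ζ.re • w + ζ.im • Complex.I • w := by
  conv_lhs => rw [← Complex.re_add_im ζ, add_smul, mul_smul]
  rw [RCLike.real_smul_eq_coe_smul (K := ℂ), RCLike.real_smul_eq_coe_smul (K := ℂ) ζ.im]
  rfl

theorem avg_taylor (hu : ContDiffAt ℝ 2 u z) (w : W) {η : ℝ} (hη : 0 < η) : ∀ᶠ r in 𝓝[>] (0 : ℝ),
    |circleAverage (fun ζ : ℂ => u (z + ζ • w)) 0 r - u z - levi u z w / 4 * r ^ 2| ≤ η * r ^ 2 := by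
  have h1 := taylor2 hu (η := η / (‖w‖ ^ 2 + 1)) (by positivity)
  filter_upwards [ev_disc (h1.and (hu.eventually (by simp))) w] with r hr
  have hc : ContinuousOn u {x | ContDiffAt ℝ 2 u x} := fun x hx =>
    (show ContDiffAt ℝ 2 u x from hx).continuousAt.continuousWithinAt
  have hi := line_int hc.upperSemicontinuousOn (.of_cont hc) fun ζ hζ => (hr ζ hζ).2
  set A := fderiv ℝ u z
  have hs := hess_symm hu (Complex.I • w) w
  unfold levi
  set B := fderiv ℝ (fderiv ℝ u) z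
  set w' := Complex.I • w with hw'
  have key := fun t : ℝ => F0.avg_clm (c := 0) (r := r) Complex.reCLM (f := fun ζ : ℂ =>
    ((u z + (B w w + B w' w') / 4 * r ^ 2 + t : ℝ) : ℂ) + ζ * ⟨A w, -A w'⟩ +
      ζ * ζ * ⟨(B w w - B w' w') / 4, -B w w' / 2⟩) fun ζ _ => by fun_prop
  have e : ∀ ζ ∈ sphere (0 : ℂ) |r|, |u (z + ζ • w) - (u z + (B w w + B w' w') / 4 * r ^ 2 +
      (ζ * ⟨A w, -A w'⟩ + ζ * ζ * ⟨(B w w - B w' w') / 4, -B w w' / 2⟩).re)| ≤ η * r ^ 2 := by
    intro ζ hζ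
    have a := mem_sphere_zero_iff_norm.1 hζ
    have b := (hr ζ a.le).1
    have c : r ^ 2 = ζ.re * ζ.re + ζ.im * ζ.im := by
      rw [← sq_abs, ← a, Complex.sq_norm, Complex.normSq_apply]
    rw [add_sub_cancel_left, norm_smul, a, mul_pow, sq_abs] at b
    refine le_of_eq_of_le (congrArg _ ?_) (b.trans ?_)
    · rw [smul_re_im ζ w, ← hw', c]
      simp [hs]
      ring
    · rw [mul_comm (r ^ 2), ← mul_assoc, div_mul_eq_mul_div, mul_div_assoc]
      exact mul_le_mul_of_nonneg_right (mul_le_of_le_one_right hη.le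
        (div_le_one_of_le₀ (by linarith) (by positivity))) (sq_nonneg r)
  have a := circleAverage_mono hi (key (η * r ^ 2)).1 fun ζ hζ => by
    have := (abs_le.1 (e ζ hζ)).2
    simp only [Complex.reCLM_apply, Complex.add_re, Complex.ofReal_re] at this ⊢
    linarith
  have b := circleAverage_mono (key (-(η * r ^ 2))).1 hi fun ζ hζ => by
    have := (abs_le.1 (e ζ hζ)).1
    simp only [Complex.reCLM_apply, Complex.add_re, Complex.ofReal_re] at this ⊢
    linarith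
  rw [(key _).2] at a b
  simp only [Complex.reCLM_apply, zero_mul, add_zero, Complex.ofReal_re] at a b
  exact abs_le.2 ⟨by linarith, by linarith⟩

theorem locSub_iff (hu : ContDiffAt ℝ 2 u z) : LocSub u z ↔ ∀ w, 0 ≤ levi u z w := by
  refine ⟨fun h w => le_of_forall_pos_le_add fun η hη => ?_, fun h w η hη =>
    (avg_taylor hu w hη).mono fun r hr => ?_⟩
  · obtain ⟨r, ⟨h1, h2⟩, h3⟩ := (((h w (η / 8) (by positivity)).and
      (avg_taylor hu w (η := η / 8) (by positivity))).and self_mem_nhdsWithin).exists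
    refine nonneg_of_mul_nonneg_left (b := r ^ 2) ?_ (pow_pos h3 2)
    linarith [(abs_le.1 h2).2]
  · nlinarith [(abs_le.1 hr).1, h w, sq_nonneg r]

theorem psh_of_levi (h : ∀ z ∈ U, ContDiffAt ℝ 2 u z ∧ ∀ w, 0 ≤ levi u z w) : Psh u U :=
  have hc : ContinuousOn u U := fun z hz => (h z hz).1.continuousAt.continuousWithinAt
  psh_of_locSub hc.upperSemicontinuousOn (.of_cont hc) fun z hz => (locSub_iff (h z hz).1).2 (h z hz).2

theorem Psh.levi_nonneg (h : Psh u U) (hz : U ∈ 𝓝 z) (hu : ContDiffAt ℝ 2 u z) (w : W) :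
    0 ≤ levi u z w := (locSub_iff hu).1 (h.locSub hz) w

theorem lpsh_of_levi (hU : IsOpen U) (hc : UpperSemicontinuousOn P U) (h0 : ∀ z ∈ U, 0 ≤ P z)
    (h : ∀ z ∈ U, 0 < P z → ContDiffAt ℝ 2 P z ∧ ∀ w, 0 ≤ levi (fun y => log (P y)) z w) :
    LPsh P U := by
  refine lpsh_of_touch hU hc h0 fun z hz hp => ?_
  have a : ∀ y ∈ {y ∈ U | 0 < P y}, ContDiffAt ℝ 2 (fun y => log (P y)) y := fun y hy =>
    (h y hy.1 hy.2).1.log hy.2.ne'
  exact ⟨{y ∈ U | 0 < P y}, (hU.eventually_mem hz).and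
    ((h z hz hp).1.continuousAt.eventually (lt_mem_nhds hp)), _,
    (psh_of_levi fun y hy => ⟨a y hy, (h y hy.1 hy.2).2⟩).lpsh_exp
      (.of_cont fun y hy => (a y hy).continuousAt.continuousWithinAt),
    fun y hy => (exp_log hy.2).le, exp_log hp⟩

theorem LPsh.levi_nonneg (h : LPsh P U) (hz : U ∈ 𝓝 z) (hp : 0 < P z) (hu : ContDiffAt ℝ 2 P z)
    (w : W) : 0 ≤ levi (fun y => log (P y)) z w := by
  have a : ∀ᶠ y in 𝓝 z, y ∈ U ∧ P z / 2 < P y :=
    Eventually.and hz (hu.continuousAt.eventually (lt_mem_nhds (half_lt_self hp)))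
  exact ((h.mono fun y hy => hy.1).psh_log (fun y hy => (half_pos hp).trans hy.2)
    (.of_le _ fun y hy => log_le_log (half_pos hp) hy.2.le)).levi_nonneg a (hu.log hp.ne') w

end levi

variable {n : ℕ} {u P : Cm n → ℝ} {U : Set (Cm n)} {z : Cm n}

theorem cHess_quad (hu : ContDiffAt ℝ 2 u z) (x : Cm n) :
    star x ⬝ᵥ (cHess u z).mulVec x = (levi u z (star x) / 4 : ℝ) := by
  rw [N.cHess_eq_lev (diff_fderiv hu), N.lev_quadratic (hess_symm hu), levi]

theorem cHess_psd_iff (hu : ContDiffAt ℝ 2 u z) :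
    (cHess u z).PosSemidef ↔ ∀ w, 0 ≤ levi u z w := by
  refine ⟨fun h w => ?_, fun h => .of_dotProduct_mulVec_nonneg ?_ fun x => ?_⟩
  · have := h.dotProduct_mulVec_nonneg (star w)
    rw [cHess_quad hu, star_star, Complex.zero_le_real] at this
    linarith
  · rw [N.cHess_eq_lev (diff_fderiv hu)]
    exact N.lev_isHermitian (hess_symm hu)
  · rw [cHess_quad hu, Complex.zero_le_real]
    linarith [h (star x)]

theorem psh_of_cHess (h : ∀ z ∈ U, ContDiffAt ℝ 2 u z ∧ (cHess u z).PosSemidef) : Psh u U :=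
  psh_of_levi fun z hz => ⟨(h z hz).1, (cHess_psd_iff (h z hz).1).1 (h z hz).2⟩

theorem Psh.cHess_psd (h : Psh u U) (hz : U ∈ 𝓝 z) (hu : ContDiffAt ℝ 2 u z) :
    (cHess u z).PosSemidef := (cHess_psd_iff hu).2 (h.levi_nonneg hz hu)

theorem lpsh_of_cHess (hU : IsOpen U) (hc : UpperSemicontinuousOn P U) (h0 : ∀ z ∈ U, 0 ≤ P z)
    (h : ∀ z ∈ U, 0 < P z → ContDiffAt ℝ 2 P z ∧ (cHess (fun y => log (P y)) z).PosSemidef) :
    LPsh P U := lpsh_of_levi hU hc h0 fun z hz hp =>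
  ⟨(h z hz hp).1, (cHess_psd_iff ((h z hz hp).1.log hp.ne')).1 (h z hz hp).2⟩

theorem LPsh.cHess_psd (h : LPsh P U) (hz : U ∈ 𝓝 z) (hp : 0 < P z) (hu : ContDiffAt ℝ 2 P z) :
    (cHess (fun y => log (P y)) z).PosSemidef :=
  (cHess_psd_iff (hu.log hp.ne')).2 (h.levi_nonneg hz hp hu)

end Vale.Agent.P284Z
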