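import Vale.Agent.P284Z.F0.Ops

/-!
# P284Z, block F0: regularisation, holomorphic pull backs
-/

set_option linter.unusedVariables false

open scoped Topology ContDiff
open Filter Set Metric MeasureTheory Real

noncomputable section

namespace Vale.Agent.P284Z

variable {W W' : Type} [NormedAddCommGroup W] [NormedSpace ℂ W] [NormedAddCommGroup W']
  [NormedSpace ℂ W'] [FiniteDimensional ℂ W] {u v P : W → ℝ} {U K : Set W} {ε : ℝ}

theorem Psh.exists_bp (h : Psh u U) (hb : LB u U) (hU : IsOpen U) (hK : IsCompact K)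
    (hKU : K ⊆ U) : ∃ V, K ⊆ V ∧ V ⊆ U ∧ Z.BP u V := by
  have : ProperSpace W := Z.proper
  obtain ⟨L, h1, h2, h3⟩ := exists_compact_between hK hU hKU
  exact ⟨_, h2, interior_subset.trans h3, isOpen_interior, h.mono (interior_subset.trans h3),
    (hb.bdd h1 h3).imp fun _ h z hz => h z (interior_subset hz)⟩

/-- a smooth rotation invariant kernel -/
theorem exists_kernel [MeasurableSpace W] [BorelSpace W] (μ : Measure W) [μ.IsAddHaarMeasure]
    (hε : 0 < ε) : ∃ k : W → ℝ, ContDiff ℝ ∞ k ∧ HasCompactSupport k ∧ (∀ w, 0 ≤ k w) ∧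
      (∀ w, ε < ‖w‖ → k w = 0) ∧ (∀ a : ℂ, ‖a‖ = 1 → ∀ w, k (a • w) = k w) ∧ ∫ w, k w ∂μ = 1 := by
  have : ProperSpace W := Z.proper
  let A : W ≃L[ℂ] EuclideanSpace ℂ (Fin (Module.finrank ℂ W)) := .ofFinrankEq (by simp)
  obtain ⟨C, hC, hA⟩ := A.symm.toContinuousLinearMap.bound
  let k : W → ℝ := fun w => expNegInvGlue (ε ^ 2 - C ^ 2 * ‖A w‖ ^ 2)
  have k1 : ContDiff ℝ ∞ k := expNegInvGlue.contDiff.comp (contDiff_const.sub (contDiff_const.mul
    ((A.toContinuousLinearMap.restrictScalars ℝ).contDiff.norm_sq ℂ)))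
  have k2 : ∀ w, ε < ‖w‖ → k w = 0 := fun w hw => expNegInvGlue.zero_of_nonpos (by
    have : ε ≤ C * ‖A w‖ := hw.le.trans (by simpa using hA (A w))
    rw [← mul_pow, sub_nonpos]
    exact pow_le_pow_left₀ hε.le this 2)
  have k3 : HasCompactSupport k :=
    .intro (isCompact_closedBall 0 ε) fun w hw => k2 w (by simpa using hw)
  have k4 : 0 < ∫ w, k w ∂μ := k1.continuous.integral_pos_of_hasCompactSupport_nonneg_nonzero k3
    (fun _ => expNegInvGlue.nonneg _) (x := 0) (expNegInvGlue.pos_of_pos (by simp [hε])).ne'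
  refine ⟨fun w => (∫ w, k w ∂μ)⁻¹ * k w, contDiff_const.mul k1, k3.mul_left,
    fun w => mul_nonneg (inv_pos.2 k4).le (expNegInvGlue.nonneg _),
    fun w hw => by simp only [k2 w hw, mul_zero], fun a ha w => ?_, ?_⟩
  · simp only [k, map_smul, norm_smul, ha, one_mul]
  · rw [integral_const_mul, inv_mul_cancel₀ k4.ne']

/-- regularisation -/
theorem Psh.reg (h : Psh u U) (hb : LB u U) (hU : IsOpen U) (hK : IsCompact K) (hε : 0 < ε)
    (hKU : cthickening ε K ⊆ U) : ∃ v : W → ℝ, ContDiff ℝ ∞ v ∧ Psh v K ∧ ∀ y ∈ K, u y ≤ v y ∧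
      ∀ t, (∀ x ∈ closedBall y ε, u x ≤ t) → v y ≤ t := by
  have : ProperSpace W := Z.proper
  borelize W
  let μ : Measure W := Measure.addHaar
  obtain ⟨k, k1, k2, k3, k4, k5, k6⟩ := exists_kernel μ hε
  obtain ⟨V, v1, v2, hV⟩ := h.exists_bp hb hU hK.cthickening hKU
  obtain ⟨f, B, m1, m2, m3, -⟩ := hV.cut hK.cthickening v1
  have hk : Integrable k μ := k1.continuous.integrable_of_hasCompactSupport k2
  have hi : ∀ y, Integrable (fun w => k w * f (y + w)) μ := fun y => hk.mul_bdd (c := B)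
    (m1.comp (measurable_const_add y)).aestronglyMeasurable (Eventually.of_forall fun _ => m2 _)
  have mem : ∀ y ∈ K, ∀ w, ‖w‖ ≤ ε → y + w ∈ cthickening ε K := fun y hy w hw =>
    closedBall_subset_cthickening hy ε (by simpa using hw)
  have mono : ∀ {a b : W → ℝ}, (∀ w, ‖w‖ ≤ ε → a w ≤ b w) → ∀ w, k w * a w ≤ k w * b w :=
    fun hab w => (lt_or_ge ε ‖w‖).elim (fun hw => by simp only [k4 w hw, zero_mul, le_refl])
      fun hw => mul_le_mul_of_nonneg_left (hab w hw) (k3 w)
  have sm : ContDiff ℝ ∞ fun y => ∫ w, k w * f (y + w) ∂μ := by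
    have hf : LocallyIntegrable f μ := (locallyIntegrable_const B).mono m1.aestronglyMeasurable
      (Eventually.of_forall fun w => (m2 w).trans (le_abs_self B))
    convert k2.contDiff_convolution_right (ContinuousLinearMap.mul ℝ ℝ) hf k1 using 2 with y
    rw [convolution_mul, ← integral_add_left_eq_self (fun t => f t * k (y - t)) y]
    refine integral_congr_ae (Eventually.of_forall fun w => ?_)
    have := k5 (-1) (by simp) w
    simp only [neg_smul, one_smul] at this
    simp [this, mul_comm]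
  refine ⟨_, sm, ⟨sm.continuous.continuousOn.upperSemicontinuousOn, fun z w hw => ?_⟩,
    fun y hy => ⟨?_, fun t ht => ?_⟩⟩
  · obtain ⟨s1, s2⟩ := Z.swap m1 m2 hk (q := fun p => z + p.1 • w + p.2) (by fun_prop)
    rw [s1]
    refine integral_mono (hi z) s2 (mono fun x hx => ?_)
    rw [m3 _ (mem z (disc_mem hw) x hx)]
    refine (h.2 (z + x) w fun ζ hζ => hKU (add_right_comm z _ x ▸ mem _ (hw ζ hζ) x hx)).trans_eq
      (circleAverage_congr_sphere fun ζ hζ => ?_)
    simp only [add_right_comm z x]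
    exact (m3 _ (mem _ (hw ζ (le_of_eq (by simpa using hζ))) x hx)).symm
  · have := hV.kernel (μ := μ) ((closedBall_subset_cthickening hy ε).trans v1) hk k3 k4 k5
    rw [k6, mul_one] at this
    exact this.trans_eq (integral_congr_ae (Eventually.of_forall fun w => le_antisymm
      (mono (fun w hw => (m3 _ (mem y hy w hw)).ge) w) (mono (fun w hw => (m3 _ (mem y hy w hw)).le) w)))
  · refine (integral_mono (hi y) (hk.mul_const t) (mono fun w hw =>
      (m3 _ (mem y hy w hw)).trans_le (ht _ (by simpa using hw)))).trans_eq ?_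
    rw [integral_mul_const, k6, one_mul]

theorem locSub_comp (hv : ContDiff ℝ 1 v) (h : Psh v K) {g : W' → W} {O : Set W'} (hO : IsOpen O)
    (hg : DifferentiableOn ℂ g O) {x : W'} (hx : x ∈ O) (hK : K ∈ 𝓝 (g x)) :
    LocSub (fun y => v (g y)) x := by
  have : ProperSpace W := Z.proper
  intro w η hη
  have l : Differentiable ℂ fun ζ : ℂ => x + ζ • w := by fun_prop
  have hS := hO.preimage l.continuous
  have h0 := hS.mem_nhds (show (0 : ℂ) ∈ _ by simpa using hx)
  set f : ℂ → W := fun ζ => g (x + ζ • w) with hf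
  have f0 : f 0 = g x := by simp [hf]
  have d : DifferentiableOn ℂ f _ := hg.comp l.differentiableOn (mapsTo_preimage _ _)
  obtain ⟨C, hC, b⟩ := (((Complex.differentiableOn_dslope h0).2 d).differentiableAt
    h0).isBigO_sub.exists_pos
  set a := dslope f 0 0
  have c1 : Tendsto (fun ζ : ℂ => g x + ζ • a) (𝓝 0) (𝓝 (g x)) :=
    Continuous.tendsto' (by fun_prop) _ _ (by simp)
  have c2 := (((f0 ▸ (d.differentiableAt h0).continuousAt.tendsto).prodMk_nhds c1)).eventually
    ((hv.contDiffAt.hasStrictFDerivAt one_ne_zero).isLittleO.def (div_pos hη hC))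
  filter_upwards [F0.ev_sub ((c2.and b.bound).and ((c1.eventually hK).and h0))] with r hr
  have hs := sphere_subset_closedBall.trans hr
  have dd : ∀ ζ ∈ closedBall (0 : ℂ) |r|, DifferentiableAt ℂ f ζ := fun ζ hζ =>
    d.differentiableAt (hS.mem_nhds (hr hζ).2.2)
  obtain ⟨i1, i2⟩ := F0.avg_clm (c := 0) (r := r) (-fderiv ℝ v (g x))
    (f := fun ζ => f ζ - (g x + ζ • a)) fun ζ hζ => (dd ζ hζ).sub (by fun_prop)
  have i3 : CircleIntegrable (fun ζ => v (f ζ)) 0 r := (hv.continuous.comp_continuousOn fun ζ hζ =>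
    (dd ζ (sphere_subset_closedBall hζ)).continuousAt.continuousWithinAt).circleIntegrable'
  refine (h.le_circle (w := a) (r := r) fun ζ hζ => (hr (mem_closedBall_zero_iff.2 hζ)).2.1).trans
    ((circleAverage_mono (f₂ := fun ζ => v (f ζ) + (-fderiv ℝ v (g x)) (f ζ - (g x + ζ • a)) + η * r ^ 2)
      (hv.continuous.comp (by fun_prop)).continuousOn.circleIntegrable'
      ((i3.add i1).add (circleIntegrable_const _ _ _)) fun ζ hζ => ?_).trans_eq ?_)
  · obtain ⟨⟨q1, q2⟩, -⟩ := hs hζ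
    have e : f ζ - (g x + ζ • a) = ζ • (dslope f 0 ζ - a) := by
      rw [smul_sub, ← sub_sub, ← f0, ← sub_smul_dslope, sub_zero]
    have n := mem_sphere_zero_iff_norm.1 hζ
    rw [sub_zero, n] at q2
    have q3 : η / C * ‖f ζ - (g x + ζ • a)‖ ≤ η * r ^ 2 := by
      rw [e, norm_smul, n, ← sq_abs r]
      refine (mul_le_mul_of_nonneg_left (mul_le_mul_of_nonneg_left q2 (abs_nonneg r))
        (div_pos hη hC).le).trans_eq (by field_simp)
    have := (abs_le.1 (q1.trans q3)).1
    simp only [neg_apply, Function.comp] at this ⊢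
    linarith
  · rw [circleAverage_fun_add (f₁ := fun ζ => v (f ζ) + (-fderiv ℝ v (g x)) (f ζ - (g x + ζ • a)))
      (i3.add i1) (circleIntegrable_const _ _ _), circleAverage_fun_add i3 i1, i2, circleAverage_const]
    simp [hf]

theorem Psh.comp (h : Psh u U) (hb : LB u U) (hU : IsOpen U) {g : W' → W}
    {O : Set W'} (hO : IsOpen O) (hg : DifferentiableOn ℂ g O) (hm : MapsTo g O U) :
    Psh (fun x => u (g x)) O := by
  have : ProperSpace W := Z.proper
  have hc := hg.continuousOn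
  refine psh_of_loc (hb.comp hc hm) fun x hx => ?_
  obtain ⟨K, k1, k2, k3⟩ := exists_compact_subset hU (hm hx)
  obtain ⟨δ, hδ, k4⟩ := k1.exists_cthickening_subset_open hU k3
  obtain ⟨M, -, hM⟩ := usc_bdd h.1 k1.cthickening k4
  have hN := hc.isOpen_inter_preimage hO (isOpen_interior (s := K))
  choose! v v1 v2 v3 using fun ε (hε : ε ∈ Ioc 0 δ) =>
    h.reg hb hU k1 hε.1 ((cthickening_mono hε.2 K).trans k4)
  have ev := Ioc_mem_nhdsGT hδ
  have sub : O ∩ g ⁻¹' interior K ⊆ O := inter_subset_left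
  refine ⟨_, hN.mem_nhds ⟨hx, k2⟩, psh_of_lim' (𝓕 := 𝓝[>] (0 : ℝ)) (f := fun ε y => v ε (g y))
    ((h.1.comp hc hm).mono sub) ((hb.comp hc hm).mono sub) (mem_of_superset ev fun ε hε => ?_)
    (fun L h1 _ => ⟨M, mem_of_superset ev fun ε hε y hy => ?_⟩) (fun y hy t ht => ?_)
    fun y hy t ht => Eventually.frequently (mem_of_superset ev fun ε hε =>
      ht.trans_le (v3 ε hε _ (interior_subset hy.2)).1)⟩
  · have c := (v1 ε hε).continuous.comp_continuousOn (hc.mono sub)
    exact ⟨psh_of_locSub c.upperSemicontinuousOn (.of_cont c) fun y hy =>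
      locSub_comp ((v1 ε hε).of_le (by simp)) (v2 ε hε) hO hg hy.1
        (mem_interior_iff_mem_nhds.1 hy.2), .of_cont c⟩
  · have := interior_subset (h1 hy).2
    exact (v3 ε hε _ this).2 M fun z hz =>
      hM z (cthickening_mono hε.2 K (closedBall_subset_cthickening this ε hz))
  · obtain ⟨s, s1, s2⟩ := exists_between ht
    filter_upwards [ev, F0.ev_sub (Z.usc_ev hU h.1 (hm hy.1) s1)] with ε hε h2
    rw [abs_of_pos hε.1] at h2
    exact ((v3 ε hε _ (interior_subset hy.2)).2 s fun z hz => (h2 hz).2.le).trans_lt s2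

theorem LPsh.comp (h : LPsh P U) (hU : IsOpen U) {g : W' → W}
    {O : Set W'} (hO : IsOpen O) (hg : DifferentiableOn ℂ g O) (hm : MapsTo g O U) :
    LPsh (fun x => P (g x)) O :=
  ⟨fun _ hx => h.1 _ (hm hx), fun T => (h.2 T).comp (lb_lg _ _ _) hU hO hg hm⟩

end Vale.Agent.P284Z
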