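import Vale.Agent.P284Z.F0.Reg

/-!
# P284Z, block F0: integrals over balls
-/

set_option linter.unusedVariables false
set_option linter.unusedSectionVars false

open scoped Topology ENNReal
open Filter Set Metric MeasureTheory Real

noncomputable section

namespace Vale.Agent.P284Z

variable {W : Type} [NormedAddCommGroup W] [NormedSpace ℂ W] {u P : W → ℝ} {U K : Set W}
  {z : W} {M r : ℝ} [FiniteDimensional ℂ W]

section ball
variable [MeasurableSpace W] [BorelSpace W] (μ : Measure W) [μ.IsAddHaarMeasure]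

theorem usc_aemeasurable (hu : UpperSemicontinuousOn u U) (hU : MeasurableSet U) :
    AEMeasurable u (μ.restrict U) :=
  aemeasurable_restrict_of_measurable_subtype hU (upperSemicontinuousOn_iff_restrict.2 hu).measurable

theorem usc_integrableOn (hu : UpperSemicontinuousOn u U) (hb : LB u U) (hK : IsCompact K)
    (hKU : K ⊆ U) : IntegrableOn u K μ := by
  obtain ⟨b, hb⟩ := hb.bdd hK hKU
  obtain ⟨M, -, hM⟩ := usc_bdd hu hK hKU
  exact (integrableOn_const (C := max (-b) M) hK.measure_lt_top.ne).mono'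
    (usc_aemeasurable μ (hu.mono hKU) hK.measurableSet).aestronglyMeasurable
    ((ae_restrict_mem hK.measurableSet).mono fun y hy => abs_le.2
      ⟨by linarith [le_max_left (-b) M, hb y hy], le_max_of_le_right (hM y hy)⟩)

theorem Psh.le_ball (h : Psh u U) (hb : LB u U) (hB : closedBall z r ⊆ U) :
    u z * μ.real (ball z r) ≤ ∫ y in ball z r, u y ∂μ := by
  have : ProperSpace W := Z.proper
  have hP : Z.BP u (ball z r) := ⟨isOpen_ball, h.mono (ball_subset_closedBall.trans hB),
    (hb.bdd (isCompact_closedBall z r) hB).imp fun _ h y hy => h y (ball_subset_closedBall hy)⟩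
  have sub : ∀ k : ℕ, closedBall z (r - 1 / (k + 1 : ℝ)) ⊆ ball z r := fun k =>
    closedBall_subset_ball (sub_lt_self r Nat.one_div_pos_of_nat)
  have e : ⋃ k : ℕ, closedBall z (r - 1 / (k + 1 : ℝ)) = ball z r :=
    (iUnion_subset sub).antisymm fun y hy => (exists_nat_one_div_lt (sub_pos.2 (mem_ball.1 hy))).elim
      fun k hk => mem_iUnion.2 ⟨k, mem_closedBall.2 (by linarith)⟩
  have t : ∀ f : W → ℝ, IntegrableOn f (ball z r) μ → Tendsto
      (fun k : ℕ => ∫ y in closedBall z (r - 1 / (k + 1 : ℝ)), f y ∂μ) atTop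
      (𝓝 (∫ y in ball z r, f y ∂μ)) := fun f hf => e ▸ tendsto_setIntegral_of_monotone
    (fun _ => measurableSet_closedBall) (fun a b hab => closedBall_subset_closedBall
      (sub_le_sub_left (Nat.one_div_le_one_div hab) r)) (e.symm ▸ hf)
  have t1 := t (fun _ => u z) (integrableOn_const measure_ball_lt_top.ne)
  simp only [setIntegral_const, smul_eq_mul, mul_comm _ (u z)] at t1
  exact le_of_tendsto_of_tendsto' t1 (t u ((usc_integrableOn μ h.1 hb (isCompact_closedBall z r)
    hB).mono_set ball_subset_closedBall)) fun k => hP.ball_mean (sub k)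

theorem Psh.lint_ball (h : Psh u U) (hb : LB u U) (hB : closedBall z r ⊆ U)
    (hM : ∀ y ∈ ball z r, u y ≤ M) : ∫⁻ y in ball z r, ENNReal.ofReal (M - u y) ∂μ ≤
      ENNReal.ofReal (M - u z) * μ (ball z r) := by
  have : ProperSpace W := Z.proper
  have hi := (usc_integrableOn μ h.1 hb (isCompact_closedBall z r) hB).mono_set ball_subset_closedBall
  have hc : IntegrableOn (fun _ => M) (ball z r) μ := integrableOn_const measure_ball_lt_top.ne
  rw [← ofReal_integral_eq_lintegral_ofReal (f := fun y => M - u y) (hc.sub hi)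
    ((ae_restrict_mem measurableSet_ball).mono fun y hy => sub_nonneg.2 (hM y hy)),
    integral_sub hc hi, setIntegral_const, smul_eq_mul,
    ← ENNReal.ofReal_toReal (measure_ball_lt_top (μ := μ) (x := z) (r := r)).ne,
    ← ENNReal.ofReal_mul' ENNReal.toReal_nonneg, ← measureReal_def]
  exact ENNReal.ofReal_le_ofReal (by linarith [h.le_ball μ hb hB])

theorem LPsh.lint_ball (h : LPsh P U) (hB : closedBall z r ⊆ U) (hM : ∀ y ∈ ball z r, P y ≤ M)
    (hz : 0 < P z) : (∀ᵐ y ∂μ, y ∈ ball z r → 0 < P y) ∧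
      ∫⁻ y in ball z r, ENNReal.ofReal (log M - log (P y)) ∂μ ≤
        ENNReal.ofReal (log M - log (P z)) * μ (ball z r) := by
  rcases le_or_gt r 0 with hr | hr
  · simp [ball_eq_empty.2 hr]
  have h' := h.mono (ball_subset_closedBall.trans hB)
  have a := h'.ae_pos (μ := μ) isOpen_ball (convex_ball z r).isPreconnected (mem_ball_self hr) hz
  have M0 := hz.trans_le (hM z (mem_ball_self hr))
  refine ⟨a, (lintegral_mono_ae (((ae_restrict_iff' measurableSet_ball).2 a).mono fun y hy =>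
    le_nl (log M) hy)).trans ?_⟩
  unfold nl
  rw [lintegral_iSup' (h'.aemeas_nl isOpen_ball measurableSet_ball subset_rfl _)
    (Eventually.of_forall fun y T T' hT => ENNReal.ofReal_le_ofReal
      (sub_le_sub_left (lg_anti (Nat.cast_le.2 hT) _) _))]
  refine iSup_le fun T => ?_
  rcases le_total (-(T : ℝ)) (log M) with e | e
  · exact ((h.2 T).lint_ball μ (lb_lg _ _ _) hB fun y hy =>
      lg_le_iff.2 ⟨(hM y hy).trans_eq (exp_log M0).symm, e⟩).trans
      (mul_le_mul_left (ENNReal.ofReal_le_ofReal (sub_le_sub_left (log_le_lg _ hz) _)) _)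
  · simp only [fun y => ENNReal.ofReal_of_nonpos (sub_nonpos.2 (e.trans (le_lg T (P y)))),
      lintegral_zero, zero_le]

theorem LPsh.lint_log (h : LPsh P U) (hU : IsOpen U) (hc : IsPreconnected U)
    (h0 : ∃ z ∈ U, 0 < P z) (hK : IsCompact K) (hKU : K ⊆ U) :
    ∫⁻ y in K, ENNReal.ofReal |log (P y)| ∂μ < ⊤ := by
  have : ProperSpace W := Z.proper
  obtain ⟨z, hz, h0⟩ := h0
  refine hK.induction_on (p := fun S => ∫⁻ y in S, ENNReal.ofReal |log (P y)| ∂μ < ⊤) (by simp)
    (fun s t hst ht => (lintegral_mono_set hst).trans_lt ht)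
    (fun s t hs ht => (lintegral_union_le _ _ _).trans_lt (ENNReal.add_lt_top.2 ⟨hs, ht⟩))
    fun x hx => ?_
  obtain ⟨r, hr, hB⟩ := nhds_basis_closedBall.mem_iff.1 (hU.mem_nhds (hKU hx))
  obtain ⟨y, y1, y2⟩ := exists_of_ae (ball_mem_nhds x (half_pos hr)) ((h.ae_pos (μ := μ) hU hc hz
    h0).mono fun y hy hy' => hy (hB (ball_subset_closedBall (ball_subset_ball (half_le_self hr.le) hy'))))
  have hB' : closedBall y (r / 2) ⊆ U :=
    (closedBall_subset_closedBall' (by linarith [mem_ball.1 y1])).trans hB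
  obtain ⟨M, M0, hM⟩ := usc_bdd h.usc (isCompact_closedBall y (r / 2)) hB'
  obtain ⟨a, b⟩ := h.lint_ball μ hB' (fun x hx => hM x (ball_subset_closedBall hx)) y2
  refine ⟨_, mem_nhdsWithin_of_mem_nhds (isOpen_ball.mem_nhds (mem_ball_comm.1 y1)),
    (lintegral_mono_ae (g := fun x => ENNReal.ofReal (log M - log (P x)) + ENNReal.ofReal |log M|)
      ((ae_restrict_iff' measurableSet_ball).2 (a.mono fun x hx hx' => ?_))).trans_lt ?_⟩
  · have := log_le_log (hx hx') (hM x (ball_subset_closedBall hx'))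
    exact (ENNReal.ofReal_le_ofReal (abs_le.2 ⟨by linarith [neg_abs_le (log M), le_abs_self (log M)],
      by linarith [le_abs_self (log M)]⟩)).trans ENNReal.ofReal_add_le
  · rw [lintegral_add_right _ measurable_const, setLIntegral_const]
    exact ENNReal.add_lt_top.2 ⟨b.trans_lt (ENNReal.mul_lt_top ENNReal.ofReal_lt_top
      measure_ball_lt_top), ENNReal.mul_lt_top ENNReal.ofReal_lt_top measure_ball_lt_top⟩

theorem LPsh.integrableOn_log (h : LPsh P U) (hU : IsOpen U) (hc : IsPreconnected U)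
    (h0 : ∃ z ∈ U, 0 < P z) (hK : IsCompact K) (hKU : K ⊆ U) :
    IntegrableOn (fun y => log (P y)) K μ :=
  ⟨(measurable_log.comp_aemeasurable
      (usc_aemeasurable μ (h.usc.mono hKU) hK.measurableSet)).aestronglyMeasurable,
    (hasFiniteIntegral_iff_norm _).2 (h.lint_log μ hU hc h0 hK hKU)⟩

theorem Psh.le_of_ae (h : Psh u U) (hb : LB u U) (hz : U ∈ 𝓝 z)
    (hM : ∃ N ∈ 𝓝 z, ∀ᵐ y ∂μ, y ∈ N → u y ≤ M) : u z ≤ M := by
  have : ProperSpace W := Z.proper
  obtain ⟨N, hN, hM⟩ := hM
  obtain ⟨r, hr, hB⟩ := nhds_basis_closedBall.mem_iff.1 (inter_mem hz hN)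
  have a := (h.le_ball μ hb fun y hy => (hB hy).1).trans (setIntegral_mono_on_ae
    ((usc_integrableOn μ h.1 hb (isCompact_closedBall z r) fun y hy => (hB hy).1).mono_set
      ball_subset_closedBall) (integrableOn_const (C := M) measure_ball_lt_top.ne) measurableSet_ball
    (hM.mono fun y hy hy' => hy (hB (ball_subset_closedBall hy')).2))
  rw [setIntegral_const, smul_eq_mul, mul_comm] at a
  exact le_of_mul_le_mul_left a
    (ENNReal.toReal_pos (measure_ball_pos μ z hr).ne' measure_ball_lt_top.ne)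

theorem LPsh.le_of_ae (h : LPsh P U) (hz : U ∈ 𝓝 z)
    (hM : ∃ N ∈ 𝓝 z, ∀ᵐ y ∂μ, y ∈ N → P y ≤ M) : P z ≤ M := h.psh.le_of_ae μ h.lb hz hM

end ball

/-- the strong maximum principle -/
theorem Psh.eq_of_max (h : Psh u U) (hb : LB u U) (hU : IsOpen U)
    (hc : IsPreconnected U) (hz : z ∈ U) (hm : ∀ y ∈ U, u y ≤ u z) : ∀ y ∈ U, u y = u z := by
  have : ProperSpace W := Z.proper
  borelize W
  let μ : Measure W := Measure.addHaar
  have o : IsOpen {y ∈ U | u y < u z} := isOpen_iff_mem_nhds.2 fun y hy => Z.usc_ev hU h.1 hy.1 hy.2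
  refine fun y hy => (hc.subset_left_of_subset_union (u := {y ∈ U | u y = u z})
    (isOpen_iff_mem_nhds.2 fun y hy => ?_) o (disjoint_left.2 fun y a b => b.2.ne a.2)
    (fun y hy => (hm y hy).eq_or_lt.imp (fun e => ⟨hy, e⟩) fun e => ⟨hy, e⟩) ⟨z, hz, hz, rfl⟩ hy).2
  obtain ⟨r, hr, hB⟩ := nhds_basis_closedBall.mem_iff.1 (hU.mem_nhds hy.1)
  have sub := ball_subset_closedBall.trans hB
  have a := h.lint_ball μ hb hB fun x hx => hm x (sub hx)
  rw [hy.2, sub_self, ENNReal.ofReal_zero, zero_mul, nonpos_iff_eq_zero, lintegral_eq_zero_iff'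
    (f := fun y => ENNReal.ofReal (u z - u y)) (aemeasurable_const.sub (usc_aemeasurable μ (h.1.mono sub) measurableSet_ball)
      ).ennreal_ofReal, EventuallyEq, ae_restrict_iff' measurableSet_ball] at a
  refine mem_of_superset (ball_mem_nhds y hr) fun x hx =>
    ⟨sub hx, (hm x (sub hx)).eq_or_lt.resolve_right fun e => ?_⟩
  obtain ⟨w, w1, w2⟩ := exists_of_ae (inter_mem (isOpen_ball.mem_nhds hx) (o.mem_nhds ⟨sub hx, e⟩))
    (a.mono fun w hw hw' => hw hw'.1)
  exact (sub_pos.2 w1.2.2).not_ge (ENNReal.ofReal_eq_zero.1 w2)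

end Vale.Agent.P284Z
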