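import Vale.Agent.P284Z.F0.Sub

/-!
# P284Z, block F0: operations on plurisubharmonic functions
-/

set_option linter.unusedVariables false

open scoped Topology
open Filter Set Metric MeasureTheory Real

noncomputable section

namespace Vale.Agent.P284Z

variable {W W' H : Type} [NormedAddCommGroup W] [NormedSpace ℂ W] [NormedAddCommGroup W']
  [NormedSpace ℂ W'] [NormedAddCommGroup H] [NormedSpace ℂ H] {u v P Q : W → ℝ} {U U' K : Set W}
  {z w y : W} {c M r R : ℝ}

theorem Psh.add (h : Psh u U) (h' : Psh v U) (hb : LB u U) (hb' : LB v U) :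
    Psh (fun z => u z + v z) U :=
  ⟨h.1.add h'.1, fun z w hw => by
    rw [circleAverage_fun_add (line_int₁ h.1 hb hw) (line_int₁ h'.1 hb' hw)]
    exact add_le_add (h.2 z w hw) (h'.2 z w hw)⟩

theorem Psh.const_mul (h : Psh u U) (hc : 0 ≤ c) : Psh (fun z => c * u z) U :=
  ⟨usc_map h.1 (continuous_const_mul c) (monotone_mul_left_of_nonneg hc), fun z w hw =>
    (mul_le_mul_of_nonneg_left (h.2 z w hw) hc).trans
      (circleAverage_fun_smul (a := c) (f := fun ζ : ℂ => u (z + ζ • w))).ge⟩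

theorem Psh.max (h : Psh u U) (h' : Psh v U) (hb : LB u U) (hb' : LB v U) :
    Psh (fun z => max (u z) (v z)) U :=
  psh_of_sup (h.1.sup h'.1) (hb.ge fun _ _ => le_max_left _ _) fun z _ t ht =>
    (lt_max_iff.1 ht).elim (fun ht => ⟨u, h, hb, fun _ _ => le_max_left _ _, ht⟩)
      fun ht => ⟨v, h', hb', fun _ _ => le_max_right _ _, ht⟩

theorem Psh.convex {χ : ℝ → ℝ} (h : Psh u U) (hb : LB u U) (hχ : ConvexOn ℝ univ χ)
    (hm : Monotone χ) : Psh (fun z => χ (u z)) U := by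
  have hc : Continuous χ := continuousOn_univ.1 (hχ.continuousOn isOpen_univ)
  refine psh_of_sup (usc_map h.1 hc hm) (hb.map hm) fun z hz t ht => ?_
  obtain ⟨s, h1, h2⟩ := exists_between ht
  obtain ⟨a, b, h3, h4⟩ := hχ.exists_affine_le_of_lt_real (mem_univ _) h2 isClosed_univ
    hc.continuousOn.lowerSemicontinuousOn
  have ha : 0 ≤ a := by
    by_contra ha
    have e := h3 ((|χ 0 - b| + 1) / a) (mem_univ _)
    have := hm (div_nonpos_of_nonneg_of_nonpos (by positivity : 0 ≤ |χ 0 - b| + 1) (not_le.1 ha).le)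
    rw [mul_div_cancel₀ _ (not_le.1 ha).ne] at e
    linarith [le_abs_self (χ 0 - b)]
  exact ⟨_, (h.const_mul ha).add (psh_const b U) (hb.const_mul ha) (lb_const _ _),
    (hb.const_mul ha).add (lb_const _ _), fun _ _ => h3 _ (mem_univ _), h1.trans_eq h4.symm⟩

theorem psh_re {f : W → ℂ} (hU : IsOpen U) (hf : DifferentiableOn ℂ f U) :
    Psh (fun z => (f z).re) U :=
  ⟨(Complex.continuous_re.comp_continuousOn hf.continuousOn).upperSemicontinuousOn, fun z w hw => by
    simpa using (F0.avg_clm (c := 0) (r := 1) Complex.reCLM (f := fun ζ : ℂ => f (z + ζ • w))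
      fun ζ hζ => (hf.differentiableAt (hU.mem_nhds (hw ζ (by simpa using hζ)))).comp ζ
        (by fun_prop : DifferentiableAt ℂ (fun ζ : ℂ => z + ζ • w) ζ)).2.ge⟩

theorem lb_re {f : W → ℂ} (hf : DifferentiableOn ℂ f U) : LB (fun z => (f z).re) U :=
  .of_cont (Complex.continuous_re.comp_continuousOn hf.continuousOn)

theorem Psh.lpsh_exp (h : Psh u U) (hb : LB u U) : LPsh (fun z => exp (u z)) U :=
  ⟨fun _ _ => (exp_pos _).le, fun T => (h.max (psh_const (-T) U) hb (lb_const _ _)).congr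
    fun z _ => by simp only [lg_eq_max T (exp_pos _), log_exp]⟩

theorem LPsh.psh_log (h : LPsh P U) (hp : ∀ z ∈ U, 0 < P z) (hb : LB (fun z => log (P z)) U) :
    Psh (fun z => log (P z)) U :=
  psh_of_lim (𝓕 := atTop) (f := fun T z => lg T (P z))
    (fun z hz t ht => ((h.usc z hz _ ((log_lt_iff_lt_exp (hp z hz)).1 ht)).and
      eventually_mem_nhdsWithin).mono fun y hy => (log_lt_iff_lt_exp (hp y hy.2)).2 hy.1) hb
    (Eventually.of_forall fun T => ⟨h.2 T, lb_lg _ _ _⟩)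
    (fun K h1 h2 => (usc_bdd (h.2 0).1 h2 h1).elim fun M hM =>
      ⟨M, (eventually_ge_atTop 0).mono fun T hT z hz => (lg_anti hT _).trans (hM.2 z hz)⟩)
    fun z hz => tendsto_const_nhds.congr' ((ev_lg (hp z hz)).mono fun _ => Eq.symm)

theorem tendsto_exp_lg {x : ℝ} (hx : 0 ≤ x) : Tendsto (fun T => exp (lg T x)) atTop (𝓝 x) := by
  simpa only [exp_lg, max_eq_left hx] using
    (tendsto_const_nhds (x := x)).max tendsto_exp_neg_atTop_nhds_zero

theorem le_exp_lg (T x : ℝ) : x ≤ exp (lg T x) := exp_lg T x ▸ le_max_left _ _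

theorem LPsh.psh (h : LPsh P U) : Psh P U :=
  psh_of_lim (𝓕 := atTop) (f := fun T z => exp (lg T (P z))) h.usc h.lb
    (Eventually.of_forall fun T => ⟨(h.2 T).convex (lb_lg _ _ _) convexOn_exp exp_monotone,
      .of_le 0 fun _ _ => (exp_pos _).le⟩)
    (fun K h1 h2 => (usc_bdd (h.2 0).1 h2 h1).elim fun M hM => ⟨exp M, (eventually_ge_atTop 0).mono
      fun T hT z hz => exp_monotone ((lg_anti hT _).trans (hM.2 z hz))⟩)
    fun z hz => tendsto_exp_lg (h.1 z hz)

theorem LPsh.le_of_frontier [Nontrivial W] (h : LPsh P U) (hK : IsCompact K)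
    (hKU : K ⊆ U) (hM : ∀ z ∈ frontier K, P z ≤ M) : ∀ z ∈ K, P z ≤ M :=
  h.psh.le_of_frontier h.lb hK hKU hM

/-- decreasing limits -/
theorem lpsh_of_dec {f : ℝ → W → ℝ} (hf : ∀ T, LPsh (f T) U) (h1 : ∀ T, ∀ z ∈ U, P z ≤ f T z)
    (h2 : ∀ T ≥ 0, ∀ z ∈ U, f T z ≤ f 0 z)
    (ht : ∀ z ∈ U, Tendsto (fun T => f T z) atTop (𝓝 (P z))) : LPsh P U :=
  lpsh_of_lim (fun z hz t h => ((ht z hz).eventually (gt_mem_nhds h)).exists.elim fun T hT =>
      (((hf T).usc z hz t hT).and eventually_mem_nhdsWithin).mono fun y hy =>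
        (h1 T y hy.2).trans_lt hy.1) (Eventually.of_forall hf)
    (fun K a b => (usc_bdd (hf 0).usc b a).elim fun M hM => ⟨M, (eventually_ge_atTop 0).mono
      fun T hT z hz => (h2 T hT z (a hz)).trans (hM.2 z hz)⟩) ht

theorem lpsh_const (hc : 0 ≤ c) (U : Set W) : LPsh (fun _ => c) U :=
  ⟨fun _ _ => hc, fun _ => psh_const _ _⟩

theorem LPsh.mul (h : LPsh P U) (h' : LPsh Q U) : LPsh (fun z => P z * Q z) U :=
  lpsh_of_dec (f := fun T z => exp (lg T (P z) + lg T (Q z)))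
    (fun T => ((h.2 T).add (h'.2 T) (lb_lg _ _ _) (lb_lg _ _ _)).lpsh_exp
      ((lb_lg _ _ _).add (lb_lg _ _ _)))
    (fun T z hz => by
      rw [exp_add]
      exact mul_le_mul (le_exp_lg _ _) (le_exp_lg _ _) (h'.1 z hz) (exp_pos _).le)
    (fun T hT z _ => exp_monotone (add_le_add (lg_anti hT _) (lg_anti hT _)))
    fun z hz => by
      simpa only [exp_add] using (tendsto_exp_lg (h.1 z hz)).mul (tendsto_exp_lg (h'.1 z hz))

theorem LPsh.const_mul (h : LPsh P U) (hc : 0 ≤ c) : LPsh (fun z => c * P z) U :=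
  (lpsh_const hc U).mul h

theorem LPsh.mul_exp (h : LPsh P U) (hu : Psh u U) (hb : LB u U) :
    LPsh (fun z => P z * exp (u z)) U := h.mul (hu.lpsh_exp hb)

theorem LPsh.max (h : LPsh P U) (h' : LPsh Q U) : LPsh (fun z => max (P z) (Q z)) U :=
  ⟨fun z hz => le_max_of_le_left (h.1 z hz), fun T =>
    ((h.2 T).max (h'.2 T) (lb_lg _ _ _) (lb_lg _ _ _)).congr fun _ _ => (lg_mono T).map_max⟩

theorem LPsh.rpow (h : LPsh P U) (hc : 0 ≤ c) : LPsh (fun z => P z ^ c) U :=
  lpsh_of_dec (f := fun T z => exp (c * lg T (P z)))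
    (fun T => ((h.2 T).const_mul hc).lpsh_exp ((lb_lg _ _ _).const_mul hc))
    (fun T z hz => by
      rw [mul_comm, exp_mul]
      exact rpow_le_rpow (h.1 z hz) (le_exp_lg _ _) hc)
    (fun T hT z _ => exp_monotone (mul_le_mul_of_nonneg_left (lg_anti hT _) hc))
    fun z hz => by
      simpa only [mul_comm c, exp_mul] using (tendsto_exp_lg (h.1 z hz)).rpow_const (Or.inr hc)

theorem LPsh.pow (h : LPsh P U) (k : ℕ) : LPsh (fun z => P z ^ k) U := by
  simpa only [rpow_natCast] using h.rpow k.cast_nonneg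

theorem LPsh.add (h : LPsh P U) (h' : LPsh Q U) : LPsh (fun z => P z + Q z) U := by
  refine lpsh_of_sup (h.usc.add h'.usc) (fun z hz => add_nonneg (h.1 z hz) (h'.1 z hz))
    fun z hz t ht h0 => ?_
  have hs := h0.trans_lt ht
  have a := div_nonneg (h.1 z hz) hs.le
  have b := div_nonneg (h'.1 z hz) hs.le
  have ab : P z / (P z + Q z) + Q z / (P z + Q z) = 1 := by rw [← add_div, div_self hs.ne']
  have e : ∀ p : ℝ, ((p / (P z + Q z))⁻¹ * p) ^ (p / (P z + Q z)) = (P z + Q z) ^ (p / (P z + Q z)) :=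
    fun p => by
      rcases eq_or_ne p 0 with rfl | hp
      · simp
      · rw [inv_div, div_mul_cancel₀ _ hp]
  have m : ∀ {l x : ℝ}, 0 ≤ x → l * (l⁻¹ * x) ≤ x := fun hx => by
    rw [← mul_assoc]
    exact mul_le_of_le_one_left hx mul_inv_le_one
  refine ⟨_, ((h.const_mul (inv_nonneg.2 a)).rpow a).mul ((h'.const_mul (inv_nonneg.2 b)).rpow b),
    fun y hy => (geom_mean_le_arith_mean2_weighted a b (mul_nonneg (inv_nonneg.2 a) (h.1 y hy))
      (mul_nonneg (inv_nonneg.2 b) (h'.1 y hy)) ab).trans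
        (add_le_add (m (h.1 y hy)) (m (h'.1 y hy))), ?_⟩
  rwa [e, e, ← rpow_add hs, ab, rpow_one]

theorem lpsh_sum {ι : Type} (s : Finset ι) {f : ι → W → ℝ} (h : ∀ i ∈ s, LPsh (f i) U) :
    LPsh (fun z => ∑ i ∈ s, f i z) U := by
  induction s using Finset.cons_induction with
  | empty => exact lpsh_const le_rfl U
  | cons a s ha ih => simpa only [Finset.sum_cons] using
      (h a (by simp)).add (ih fun i hi => h i (by simp [hi]))

theorem lpsh_prod {ι : Type} (s : Finset ι) {f : ι → W → ℝ} (h : ∀ i ∈ s, LPsh (f i) U) :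
    LPsh (fun z => ∏ i ∈ s, f i z) U := by
  induction s using Finset.cons_induction with
  | empty => exact lpsh_const zero_le_one U
  | cons a s ha ih => simpa only [Finset.prod_cons] using
      (h a (by simp)).mul (ih fun i hi => h i (by simp [hi]))

theorem lb_log_norm {f : W → ℂ} (hf : DifferentiableOn ℂ f U) (h0 : ∀ z ∈ U, f z ≠ 0) (c : ℝ) :
    LB (fun z => c * log ‖f z‖) U :=
  .of_cont (continuousOn_const.mul (hf.continuousOn.norm.log fun z hz => norm_ne_zero_iff.2 (h0 z hz)))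

theorem psh_log_norm {f : W → ℂ} (hU : IsOpen U) (hf : DifferentiableOn ℂ f U)
    (h0 : ∀ z ∈ U, f z ≠ 0) (c : ℝ) : Psh (fun z => c * log ‖f z‖) U := by
  refine psh_of_loc (lb_log_norm hf h0 c) fun z hz => ?_
  have hd : DifferentiableOn ℂ (fun y => f y / f z) U := by
    simpa only [div_eq_mul_inv] using hf.mul_const (f z)⁻¹
  have hN := hd.continuousOn.isOpen_inter_preimage hU Complex.isOpen_slitPlane
  refine ⟨_, hN.mem_nhds ⟨hz, by simp [h0 z hz]⟩, (psh_re hN
    (f := fun y => c * (Complex.log (f y / f z) + (log ‖f z‖ : ℝ)))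
    ((((hd.mono inter_subset_left).clog fun y hy => hy.2).add_const _).const_mul _)).congr
      fun y hy => ?_⟩
  simp only [Complex.re_ofReal_mul, Complex.add_re, Complex.log_re, Complex.ofReal_re, norm_div]
  rw [log_div (norm_ne_zero_iff.2 (h0 y hy.1)) (norm_ne_zero_iff.2 (h0 z hz)), sub_add_cancel]

/-- all real powers of the modulus of a holomorphic function without zeros -/
theorem lpsh_norm_rpow {f : W → ℂ} (hU : IsOpen U) (hf : DifferentiableOn ℂ f U)
    (h0 : ∀ z ∈ U, f z ≠ 0) (c : ℝ) : LPsh (fun z => ‖f z‖ ^ c) U :=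
  ((psh_log_norm hU hf h0 c).lpsh_exp (lb_log_norm hf h0 c)).congr fun z hz => by
    simp only [rpow_def_of_pos (norm_pos_iff.2 (h0 z hz)), mul_comm]

theorem lpsh_norm {F : W → H} (hU : IsOpen U) (hF : DifferentiableOn ℂ F U) :
    LPsh (fun z => ‖F z‖) U := by
  refine lpsh_of_touch hU hF.continuousOn.norm.upperSemicontinuousOn (fun _ _ => norm_nonneg _)
    fun z hz h0 => ?_
  obtain ⟨g, g1, g2⟩ := exists_dual_vector'' ℂ (F z)
  have hd : DifferentiableOn ℂ (fun y => g (F y)) U := g.differentiable.comp_differentiableOn hF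
  have hN := hd.continuousOn.isOpen_inter_preimage hU (isOpen_compl_singleton (x := 0))
  refine ⟨_, hN.mem_nhds ⟨hz, by simpa [g2] using h0⟩, _, lpsh_norm_rpow hN
    (hd.mono inter_subset_left) (fun y hy => hy.2) 1, fun y _ => ?_, by simp [g2]⟩
  rw [rpow_one]
  exact (g.le_opNorm _).trans (mul_le_of_le_one_left (norm_nonneg _) g1)

theorem Psh.affine (h : Psh u U) (p : W) (L : W' →L[ℂ] W) :
    Psh (fun x => u (p + L x)) {x | p + L x ∈ U} :=
  ⟨h.1.comp (by fun_prop) fun _ hx => hx, fun z w hw => by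
    have e : ∀ ζ : ℂ, p + L (z + ζ • w) = p + L z + ζ • L w := fun ζ => by
      rw [map_add, map_smul, add_assoc]
    simpa only [e] using h.2 (p + L z) (L w) fun ζ hζ => e ζ ▸ hw ζ hζ⟩

theorem LPsh.affine (h : LPsh P U) (p : W) (L : W' →L[ℂ] W) :
    LPsh (fun x => P (p + L x)) {x | p + L x ∈ U} := Z.lpsh_affine h p L

theorem Psh.fst (h : Psh u U) (O : Set W') : Psh (fun q : W × W' => u q.1) (U ×ˢ O) := by
  simpa using (h.affine 0 (.fst ℂ W W')).mono (U' := U ×ˢ O) fun q hq => by simpa using hq.1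

theorem Psh.snd (h : Psh u U) (O : Set W') : Psh (fun q : W' × W => u q.2) (O ×ˢ U) := by
  simpa using (h.affine 0 (.snd ℂ W' W)).mono (U' := O ×ˢ U) fun q hq => by simpa using hq.2

theorem LPsh.fst (h : LPsh P U) (O : Set W') : LPsh (fun q : W × W' => P q.1) (U ×ˢ O) :=
  ⟨fun _ hq => h.1 _ hq.1, fun T => (h.2 T).fst O⟩

theorem LPsh.snd (h : LPsh P U) (O : Set W') : LPsh (fun q : W' × W => P q.2) (O ×ˢ U) :=
  ⟨fun _ hq => h.1 _ hq.2, fun T => (h.2 T).snd O⟩

theorem LPsh.left {P : W × W' → ℝ} {O : Set W'} (h : LPsh P (U ×ˢ O)) {x : W'} (hx : x ∈ O) :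
    LPsh (fun z => P (z, x)) U := by
  simpa using (h.affine (0, x) (.inl ℂ W W')).mono (U' := U) fun q hq => by simpa using ⟨hq, hx⟩

theorem LPsh.right {P : W' × W → ℝ} {O : Set W'} (h : LPsh P (O ×ˢ U)) {x : W'} (hx : x ∈ O) :
    LPsh (fun z => P (x, z)) U := by
  simpa using (h.affine (x, 0) (.inr ℂ W' W)).mono (U' := U) fun q hq => by simpa using ⟨hx, hq⟩

end Vale.Agent.P284Z
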