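import Vale.Agent.P284Z.F0.Ops

/-!
# P284Z, block F0: annuli, three spheres, Lelong numbers, relaxed limits
-/

set_option linter.unusedVariables false

open scoped Topology
open Filter Set Metric MeasureTheory Real

noncomputable section

namespace Vale.Agent.P284Z

variable {W : Type} [NormedAddCommGroup W] [NormedSpace ℂ W] {P : W → ℝ} {U K : Set W}
  {z y : W} {c M r R : ℝ}

theorem LPsh.annulus (h : LPsh P U) (hB : closedBall z R ⊆ U) (hr : 0 < r) (hM : 0 ≤ M)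
    (h1 : ∀ y ∈ sphere z r, P y ≤ M * r ^ c) (h2 : ∀ y ∈ sphere z R, P y ≤ M * R ^ c)
    (hy : r ≤ ‖y - z‖) (hy' : ‖y - z‖ ≤ R) : P y ≤ M * ‖y - z‖ ^ c := by
  refine le_of_forall_pos_le_add fun ε hε => ?_
  have h0 := rpow_pos_of_pos (hr.trans_le hy) c
  have a := (div_pos hε h0).le
  refine (S.three h (A := M + ε / ‖y - z‖ ^ c) (s := c) hr (by positivity) hB
    (fun x hx => (h1 x (mem_sphere_iff_norm.2 hx)).trans ?_)
    (fun x hx => (h2 x (mem_sphere_iff_norm.2 hx)).trans ?_) hy hy').trans_eq ?_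
  · exact mul_le_mul_of_nonneg_right (by linarith) (rpow_nonneg hr.le c)
  · exact mul_le_mul_of_nonneg_right (by linarith) (rpow_nonneg (hr.le.trans (hy.trans hy')) c)
  · rw [add_mul, div_mul_cancel₀ _ h0.ne']

theorem geo_eq {a b : ℝ} (ha : 0 < a) (hb : 0 ≤ b) (t : ℝ) :
    a ^ (1 - t) * b ^ t = a * (b / a) ^ t := by
  rw [rpow_sub ha, rpow_one, div_rpow hb ha.le]
  ring

theorem LPsh.three (h : LPsh P U) (hB : closedBall z R ⊆ U) (hr : 0 < r) (hR : r ≤ R) {A B t : ℝ}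
    (hA : 0 < A) (hAB : A ≤ B) (h1 : ∀ y ∈ closedBall z r, P y ≤ A)
    (h2 : ∀ y ∈ closedBall z R, P y ≤ B) (ht : t ∈ Icc (0 : ℝ) 1)
    (hy : y ∈ closedBall z (r ^ (1 - t) * R ^ t)) : P y ≤ A ^ (1 - t) * B ^ t := by
  have hB0 := hA.trans_le hAB
  have hR0 := hr.trans_le hR
  have a := (one_le_div hA).2 hAB
  have b := (one_le_div hr).2 hR
  rw [geo_eq hA hB0.le]
  rw [geo_eq hr hR0.le, mem_closedBall_iff_norm] at hy
  rcases le_or_gt ‖y - z‖ r with e | e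
  · exact (h1 y (mem_closedBall_iff_norm.2 e)).trans
      (le_mul_of_one_le_right hA.le (one_le_rpow a ht.1))
  have hy' : ‖y - z‖ ≤ R := hy.trans ((mul_le_mul_of_nonneg_left
    (rpow_le_self_of_one_le b ht.2) hr.le).trans_eq (mul_div_cancel₀ _ hr.ne'))
  have l := log_pos ((one_lt_div hr).2 (e.trans_le hy'))
  obtain ⟨s, s0, hs⟩ : ∃ s, 0 ≤ s ∧ (R / r) ^ s = B / A :=
    ⟨log (B / A) / log (R / r), div_nonneg (log_nonneg a) l.le, by
      rw [rpow_def_of_pos (by positivity), mul_div_cancel₀ _ l.ne', exp_log (by positivity)]⟩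
  have p := rpow_pos_of_pos hr s
  refine (h.annulus hB hr (M := A / r ^ s) (c := s) (by positivity)
    (fun x hx => (h1 x (sphere_subset_closedBall hx)).trans_eq (div_mul_cancel₀ _ p.ne').symm)
    (fun x hx => (h2 x (sphere_subset_closedBall hx)).trans_eq ?_) e.le hy').trans
    ((mul_le_mul_of_nonneg_left (rpow_le_rpow (norm_nonneg _) hy s0) (by positivity)).trans_eq ?_)
  · rw [div_mul_eq_mul_div, mul_div_assoc, ← div_rpow hR0.le hr.le, hs, mul_div_cancel₀ _ hA.ne']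
  · rw [mul_rpow hr.le (by positivity), ← rpow_mul (by positivity), mul_comm t,
      rpow_mul (by positivity), hs, ← mul_assoc, div_mul_cancel₀ _ p.ne']

theorem LPsh.le_of_not_small (h : LPsh P U) (hB : closedBall z R ⊆ U) (hR : 0 < R)
    (hM : ∀ y ∈ closedBall z R, P y ≤ M) (hc : 0 ≤ c) (hs : ¬ SmallAt P c z)
    (hy : y ∈ closedBall z R) : P y ≤ M * (‖y - z‖ / R) ^ c := by
  have hM0 := (h.1 y (hB hy)).trans (hM y hy)
  simp only [SmallAt, not_exists, not_and, not_forall, not_le, exists_prop] at hs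
  rcases hM0.eq_or_lt with rfl | hM0
  · simpa using hM y hy
  rcases (norm_nonneg (y - z)).eq_or_lt with e | e
  · refine le_trans (le_of_forall_pos_le_add fun ε hε => ?_) (by positivity : (0 : ℝ) ≤ _)
    obtain ⟨r, h1, h2⟩ := hs ε hε 1 one_pos
    have := h2 y (mem_closedBall_iff_norm.2 (e ▸ h1.1.le))
    nlinarith [rpow_le_one h1.1.le h1.2 hc]
  have p := rpow_pos_of_pos hR c
  obtain ⟨r, h1, h2⟩ := hs (M / R ^ c) (by positivity) _ e
  refine (h.annulus hB h1.1 (by positivity) (fun x hx => (h2 x (sphere_subset_closedBall hx)).le)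
    (fun x hx => (hM x (sphere_subset_closedBall hx)).trans_eq (div_mul_cancel₀ _ p.ne').symm)
    h1.2 (mem_closedBall_iff_norm.1 hy)).trans_eq ?_
  rw [div_rpow e.le hR.le]
  ring

theorem ev_rpow_lt (A : ℝ) {e κ : ℝ} (he : 0 < e) (hκ : 0 < κ) :
    ∀ᶠ r in 𝓝[>] (0 : ℝ), A * r ^ e < κ := by
  have := ((tendsto_id (x := 𝓝 (0 : ℝ))).rpow_const (Or.inr he.le)).const_mul A
  rw [zero_rpow he.ne', mul_zero] at this
  exact mem_nhdsWithin_of_mem_nhds (this.eventually (gt_mem_nhds hκ))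

omit [NormedSpace ℂ W] in
theorem not_small_of_bound {A c' : ℝ} (hb : ∀ᶠ y in 𝓝 z, P y ≤ A * ‖y - z‖ ^ c)
    (hc : 0 ≤ c) (h : c' < c) : ¬ SmallAt P c' z := by
  rintro ⟨κ, hκ, δ, hδ, H⟩
  obtain ⟨r, ⟨h1, h2⟩, h3⟩ := (((F0.ev_sub hb).and (ev_rpow_lt |A| (sub_pos.2 h) hκ)).and
    (Ioc_mem_nhdsGT hδ)).exists
  obtain ⟨y, h4, h5⟩ := H r h3
  have a : P y ≤ A * ‖y - z‖ ^ c := h1 (by rwa [abs_of_pos h3.1])
  have b := mul_le_mul (le_abs_self A) (rpow_le_rpow (norm_nonneg _)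
    (mem_closedBall_iff_norm.1 h4) hc) (by positivity) (abs_nonneg A)
  rw [rpow_sub h3.1, ← mul_div_assoc, div_lt_iff₀ (rpow_pos_of_pos h3.1 _)] at h2
  linarith

theorem LPsh.le_of_bound (h : LPsh P U) (hB : closedBall z R ⊆ U) (hR : 0 < R)
    (hM : ∀ y ∈ closedBall z R, P y ≤ M) (hc : 0 ≤ c) {A : ℝ}
    (hb : ∀ᶠ y in 𝓝 z, P y ≤ A * ‖y - z‖ ^ c) (hy : y ∈ closedBall z R) :
    P y ≤ M * (‖y - z‖ / R) ^ c := by
  rcases hc.eq_or_lt with rfl | hc0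
  · simpa using hM y hy
  refine ge_of_tendsto (x := 𝓝[<] c) (((tendsto_const_nhds.rpow tendsto_id
    (Or.inr hc0)).const_mul M).mono_left nhdsWithin_le_nhds) ?_
  filter_upwards [Ioo_mem_nhdsLT hc0] with c' h'
  exact h.le_of_not_small hB hR hM h'.1.le (not_small_of_bound hb hc h'.2) hy

/-- `RLim` at the points of `U` -/
def RLimOn {Y : Type} [TopologicalSpace Y] (g : ℕ → Y → ℝ) (G : Y → ℝ) (U : Set Y) : Prop :=
  ∀ y ∈ U, RAt g (G y) y

section rlim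
variable {Y Y' : Type} [TopologicalSpace Y] [TopologicalSpace Y'] {g : ℕ → Y → ℝ} {G φ : Y → ℝ}
  {O L : Set Y}

theorem RLim.on (h : RLim g G) (O : Set Y) : RLimOn g G O := fun y _ => h.rat y

theorem RLimOn.mono (h : RLimOn g G O) (hL : L ⊆ O) : RLimOn g G L := fun y hy => h y (hL hy)

theorem rlimOn_const (hO : IsOpen O) (h : UpperSemicontinuousOn G O) : RLimOn (fun _ => G) G O :=
  fun y hy t => ⟨fun ht => tendsto_snd.eventually (hO.nhdsWithin_eq hy ▸ h y hy t ht),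
    fun ht N hN => Eventually.of_forall fun _ => ⟨y, mem_of_mem_nhds hN, ht⟩⟩

theorem RLimOn.usc (h : RLimOn g G O) : UpperSemicontinuousOn G O := usc_of_rat h

theorem RLimOn.comp (h : RLimOn g G O) {τ : Y' → Y} {O' : Set Y'}
    (hτ : ∀ x ∈ O', τ x ∈ O ∧ map τ (𝓝 x) = 𝓝 (τ x)) :
    RLimOn (fun j x => g j (τ x)) (fun x => G (τ x)) O' :=
  fun x hx => (h _ (hτ x hx).1).map (hτ x hx).2

theorem RLimOn.subseq (h : RLimOn g G O) {φ : ℕ → ℕ} (hφ : Tendsto φ atTop atTop) :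
    RLimOn (fun j => g (φ j)) G O := fun y hy => (h y hy).sub hφ

theorem RLimOn.mul (h : RLimOn g G O) (hφ : ∀ y ∈ O, ContinuousAt φ y ∧ 0 < φ y) :
    RLimOn (fun j y => g j y * φ y) (fun y => G y * φ y) O :=
  fun y hy => (h y hy).mul_cont (hφ y hy).1 (hφ y hy).2

/-- the lemma of Hartogs -/
theorem RLimOn.hartogs (h : RLimOn g G O) (hL : IsCompact L) (hLO : L ⊆ O)
    (hφ : ∀ y ∈ L, ContinuousAt φ y ∧ G y < φ y) : ∀ᶠ j in atTop, ∀ y ∈ L, g j y < φ y :=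
  hartogs_of_rat hL (h.mono hLO) (fun y hy => (hφ y hy).1.continuousWithinAt) fun y hy => (hφ y hy).2

theorem RLimOn.exists_seq [FirstCountableTopology Y] (h : RLimOn g G O) {y : Y} (hy : y ∈ O) :
    ∃ x : ℕ → Y, Tendsto x atTop (𝓝 y) ∧ Tendsto (fun j => g j (x j)) atTop (𝓝 (G y)) :=
  (h y hy).recover

end rlim

variable [FiniteDimensional ℂ W]

theorem RLimOn.lpsh {g : ℕ → W → ℝ} (h : RLimOn g P U) (hU : IsOpen U)
    (hg : ∀ᶠ j in atTop, LPsh (g j) U) : LPsh P U := by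
  obtain ⟨N, hN⟩ := eventually_atTop.1 hg
  exact lpsh_of_rat hU (fun j => hN (j + N) (by simp)) (h.subseq (tendsto_add_atTop_nat N))

/-- **(F3)** uniform slopes; `φ` is a weight -/
theorem small_unif {g : ℕ → W → ℝ} {φ : W → ℝ} {ν : ℝ} (h : RLimOn g P U)
    (hU : IsOpen U) (hφ : ∀ y ∈ U, ContinuousAt φ y ∧ 0 < φ y)
    (hg : ∀ᶠ j in atTop, LPsh (fun y => g j y * φ y) U) (hK : IsCompact K) (hKU : K ⊆ U)
    (hs : ∀ z ∈ K, SmallAt P ν z) (hν : ν < c) (hc : 0 ≤ c) :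
    ∃ κ > (0 : ℝ), ∃ δ > (0 : ℝ), ∀ᶠ j in atTop, ∀ z ∈ K, ∀ r ∈ Ioc 0 δ,
      ∃ z' ∈ closedBall z r, κ * r ^ c ≤ g j z' := by
  have : ProperSpace W := Z.proper
  refine hK.induction_on (p := fun S => ∃ κ > (0 : ℝ), ∃ δ > (0 : ℝ), ∀ᶠ j in atTop, ∀ z ∈ S,
    ∀ r ∈ Ioc 0 δ, ∃ z' ∈ closedBall z r, κ * r ^ c ≤ g j z')
    ⟨1, one_pos, 1, one_pos, Eventually.of_forall fun _ _ h => h.elim⟩
    (fun s t hst ⟨κ, h1, δ, h2, h3⟩ => ⟨κ, h1, δ, h2, h3.mono fun j hj z hz => hj z (hst hz)⟩)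
    (fun s t ⟨κ, h1, δ, h2, h3⟩ ⟨κ', h1', δ', h2', h3'⟩ => ⟨min κ κ', lt_min h1 h1', min δ δ',
      lt_min h2 h2', (h3.and h3').mono fun j hj z hz r hr => hz.elim
        (fun hz => (hj.1 z hz r ⟨hr.1, hr.2.trans (min_le_left _ _)⟩).imp fun _ h => ⟨h.1,
          (mul_le_mul_of_nonneg_right (min_le_left _ _) (rpow_nonneg hr.1.le c)).trans h.2⟩)
        fun hz => (hj.2 z hz r ⟨hr.1, hr.2.trans (min_le_right _ _)⟩).imp fun _ h => ⟨h.1,
          (mul_le_mul_of_nonneg_right (min_le_right _ _) (rpow_nonneg hr.1.le c)).trans h.2⟩⟩)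
    fun z hz => ?_
  obtain ⟨f1, f2⟩ := hφ z (hKU hz)
  obtain ⟨R, hR, hB⟩ := nhds_basis_closedBall.eventually_iff.1 ((hU.eventually_mem (hKU hz)).and
    ((f1.eventually (lt_mem_nhds (half_lt_self f2))).and
      (f1.eventually (gt_mem_nhds (lt_add_one _)))))
  obtain ⟨S', -, hS⟩ := bdd_of_rat (isCompact_closedBall z R) ((h.mul hφ).mono fun y hy => (hB hy).1)
  obtain ⟨κ, hκ, δ, hδ, H⟩ := hs z hz
  obtain ⟨r, ⟨h1, h2⟩, h3⟩ := (((ev_rpow_lt S' (sub_pos.2 hν) (κ := κ / 4 ^ ν / 2 * (φ z / 2) *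
    (R / 2) ^ c) (by positivity)).and (Ioc_mem_nhdsGT hδ)).and (Ioc_mem_nhdsGT (half_pos hR))).exists
  have r0 := h2.1
  obtain ⟨x, hx, h4⟩ := H (r / 4) ⟨by positivity, by linarith [h2.2]⟩
  have t0 : 0 < κ * (r / 4) ^ ν / 2 := by positivity
  have sub : ∀ q ∈ closedBall z (r / 2), closedBall q (R / 2) ⊆ closedBall z R := fun q hq =>
    closedBall_subset_closedBall' (by linarith [mem_closedBall.1 hq, h3.2])
  refine ⟨closedBall z (r / 2), mem_nhdsWithin_of_mem_nhds (closedBall_mem_nhds z (half_pos r0)),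
    κ * (r / 4) ^ ν / 2 * (φ z / 2) / r ^ c / (φ z + 1), by positivity, r, r0, ?_⟩
  filter_upwards [hg, hS, ((h x (hB (closedBall_subset_closedBall (by linarith [h3.2]) hx)).1) _).2
    (show κ * (r / 4) ^ ν / 2 < P x by linarith) _ (closedBall_mem_nhds x (by positivity : 0 < r / 4))]
    with j j1 j2 ⟨y, y1, y2⟩ q hq s hs
  have y3 : y ∈ closedBall q r := by
    rw [mem_closedBall] at *
    linarith [dist_triangle4 y x z q, dist_comm z q]
  obtain ⟨u, u1, u2⟩ := S.lower_prop j1 (μ := κ * (r / 4) ^ ν / 2 * (φ z / 2)) hc (by positivity) h3.2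
    (fun y hy => (hB (sub q hq hy)).1) (fun y hy => j2 y (sub q hq hy)) y3
    (mul_lt_mul'' y2 (hB (sub q hq (closedBall_subset_closedBall h3.2 y3))).2.1 t0.le (by positivity))
    (by
      rw [rpow_sub r0, ← mul_div_assoc, div_lt_iff₀ (rpow_pos_of_pos r0 _)] at h1
      rw [div_rpow r0.le (by norm_num)]
      exact h1.le.trans_eq (by ring)) hs.1 hs.2
  have u3 := (hB (sub q hq (closedBall_subset_closedBall (hs.2.trans h3.2) u1)))
  refine ⟨u, u1, ?_⟩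
  rw [div_mul_eq_mul_div, div_le_iff₀ (by positivity)]
  exact u2.le.trans (mul_le_mul_of_nonneg_left u3.2.2.le
    (nonneg_of_mul_nonneg_left (j1.1 u u3.1) (hφ u u3.1).2))

theorem small_unif' {φ : W → ℝ} {ν : ℝ} (hU : IsOpen U)
    (hφ : ∀ y ∈ U, ContinuousAt φ y ∧ 0 < φ y) (hP : LPsh (fun y => P y * φ y) U)
    (hK : IsCompact K) (hKU : K ⊆ U) (hs : ∀ z ∈ K, SmallAt P ν z) (hν : ν < c) (hc : 0 ≤ c) :
    ∃ κ > (0 : ℝ), ∃ δ > (0 : ℝ), ∀ z ∈ K, ∀ r ∈ Ioc 0 δ,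
      ∃ z' ∈ closedBall z r, κ * r ^ c ≤ P z' := by
  have h := ((rlimOn_const hU hP.usc).mul (φ := fun y => (φ y)⁻¹) fun y hy =>
    ⟨(hφ y hy).1.inv₀ (hφ y hy).2.ne', inv_pos.2 (hφ y hy).2⟩).usc
  obtain ⟨κ, h1, δ, h2, h3⟩ := small_unif (rlimOn_const hU (usc_congr h fun y hy =>
    (mul_inv_cancel_right₀ (hφ y hy).2.ne' _).symm)) hU hφ (Eventually.of_forall fun _ => hP)
    hK hKU hs hν hc
  exact ⟨κ, h1, δ, h2, h3.exists.elim fun _ h => h⟩

end Vale.Agent.P284Z
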