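import Vale.Agent.P284Z.F0.Ball
import Vale.Agent.P284Z.F0.Three
import Vale.Agent.P284Z.F0.Levi
import Vale.Agent.P284Z.F0.Cov

/-!
# P284Z, block F0: plurisubharmonic functions on the covering (imports the whole toolkit)
-/

set_option linter.unusedVariables false

open scoped Topology ComplexOrder
open Filter Set Metric MeasureTheory Real

noncomputable section

namespace Vale.Agent.P284Z

open Vale.Agent.P272.K

variable {n : ℕ} {Γ E : Type} [Group Γ] [TopologicalSpace E] [MulAction Γ E] {C : Cov n Γ E}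

theorem Cov.ρ_cont (C : Cov n Γ E) (a : C.I) : ContinuousOn (C.ρ a) (C.B 4 a) :=
  fun z hz => (C.ρ_sm a z hz).continuousAt.continuousWithinAt

theorem Cov.ρ_lb (C : Cov n Γ E) (a : C.I) : LB (C.ρ a) (C.B 4 a) := .of_cont (C.ρ_cont a)

theorem Cov.ρ_psh (C : Cov n Γ E) (a : C.I) : Psh (C.ρ a) (C.B 4 a) :=
  psh_of_cHess fun z hz => ⟨(C.ρ_sm a z hz).of_le (by norm_cast), (C.ρ_pos a z hz).posSemidef⟩

theorem Cov.ρ_bdd (C : Cov n Γ E) {k : ℝ} (hk : k < 4) :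
    ∃ M > (0 : ℝ), ∀ a, ∀ z ∈ C.cB k a, |C.ρ a z| ≤ M := by
  choose M hM using fun a =>
    (C.isCompact_cB k a).exists_bound_of_continuousOn ((C.ρ_cont a).mono (C.cB_sub_B hk a))
  obtain ⟨L, hL⟩ := (finite_range M).bddAbove
  exact ⟨max L 1, lt_max_of_lt_right one_pos, fun a z hz =>
    le_max_of_le_left ((hM a z hz).trans (hL ⟨a, rfl⟩))⟩

/-- `A ω`-plurisubharmonicity is local and independent of the chart -/
theorem Cov.lpsh_of_charts (C : Cov n Γ E) {F : E → ℝ} {A : ℝ} {Ω : Set E}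
    (h : ∀ y ∈ Ω, ∃ γ a, ∃ z ∈ C.B 4 a, y = C.pt γ a z ∧
      ∃ N ∈ 𝓝 z, LPsh (fun w => F (C.pt γ a w) * exp (A * C.ρ a w)) N) (γ : Γ) (a : C.I) :
    LPsh (fun w => F (C.pt γ a w) * exp (A * C.ρ a w)) {z | z ∈ C.B 4 a ∧ C.pt γ a z ∈ Ω} := by
  refine lpsh_of_loc fun z hz => ?_
  obtain ⟨g, b, z', h1, h2, N, hN, h3⟩ := h _ hz.2
  obtain ⟨o, e⟩ := C.Ov_of_eq hz.1 h1 h2
  obtain ⟨f, f1, f2⟩ := C.ρ_ch _ a b z o.1 o.2
  obtain ⟨O, O1, O2, O3⟩ := _root_.eventually_nhds_iff.1 (((C.ev_Ov o).and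
    ((C.an_tr o).continuousAt.eventually_mem (interior_mem_nhds.2 (e.symm ▸ hN : N ∈ _)))).and
      (f1.eventually_analyticAt.and f2))
  have d : DifferentiableOn ℂ (fun w => A * f w) O := fun w hw =>
    ((O1 w hw).2.1.differentiableAt.const_mul _).differentiableWithinAt
  refine ⟨O, O2.mem_nhds O3, (((h3.mono interior_subset).comp isOpen_interior O2
    (fun w hw => (C.an_tr (O1 w hw).1.1).differentiableAt.differentiableWithinAt)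
    fun w hw => (O1 w hw).1.2).mul_exp (psh_re O2 d) (lb_re d)).congr fun w hw => ?_⟩
  simp only [C.pt_tr (O1 w hw).1.1, mul_inv_cancel_left, (O1 w hw).2.2, Complex.re_ofReal_mul,
    mul_add, exp_add, mul_assoc]
  rfl

theorem RLim.chart {g : ℕ → E → ℝ} {G : E → ℝ} (h : RLim g G) (C : Cov n Γ E) (γ : Γ) (a : C.I) :
    RLimOn (fun j z => g j (C.pt γ a z)) (fun z => G (C.pt γ a z)) (C.B 4 a) :=
  (h.on univ).comp fun z hz => ⟨mem_univ _, C.map_pt γ a hz⟩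

theorem RLim.chart₂ {g : ℕ → E × E → ℝ} {G : E × E → ℝ} (h : RLim g G) (C : Cov n Γ E)
    (γ γ' : Γ) (a b : C.I) :
    RLimOn (fun j (q : Cm n × Cm n) => g j (C.pt γ a q.1, C.pt γ' b q.2))
      (fun q => G (C.pt γ a q.1, C.pt γ' b q.2)) (C.B 4 a ×ˢ C.B 4 b) :=
  (h.on univ).comp fun q hq => ⟨mem_univ _, C.map_pt2 γ γ' a b hq⟩

theorem both_of {X : Type} [PseudoMetricSpace X] {K : Set X} {G : X → ℝ} {g : ℕ → X → ℝ} {c : ℝ}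
    (h : ∃ κ > (0 : ℝ), ∃ δ > (0 : ℝ), ∀ z ∈ K, ∀ r ∈ Ioc 0 δ,
      ∃ z' ∈ closedBall z r, κ * r ^ c ≤ G z')
    (h' : ∃ κ > (0 : ℝ), ∃ δ > (0 : ℝ), ∀ᶠ j in atTop, ∀ z ∈ K, ∀ r ∈ Ioc 0 δ,
      ∃ z' ∈ closedBall z r, κ * r ^ c ≤ g j z') : ∃ κ > (0 : ℝ), ∃ δ > (0 : ℝ),
      (∀ z ∈ K, ∀ r ∈ Ioc 0 δ, ∃ z' ∈ closedBall z r, κ * r ^ c ≤ G z') ∧
      ∀ᶠ j in atTop, ∀ z ∈ K, ∀ r ∈ Ioc 0 δ, ∃ z' ∈ closedBall z r, κ * r ^ c ≤ g j z' := by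
  obtain ⟨κ, h1, δ, h2, h3⟩ := h
  obtain ⟨κ', h1', δ', h2', h3'⟩ := h'
  exact ⟨min κ κ', lt_min h1 h1', min δ δ', lt_min h2 h2', fun z hz r hr =>
    (h3 z hz r ⟨hr.1, hr.2.trans (min_le_left _ _)⟩).imp fun _ h => ⟨h.1,
      (mul_le_mul_of_nonneg_right (min_le_left _ _) (rpow_nonneg hr.1.le c)).trans h.2⟩,
    h3'.mono fun j hj z hz r hr => (hj z hz r ⟨hr.1, hr.2.trans (min_le_right _ _)⟩).imp fun _ h =>
      ⟨h.1, (mul_le_mul_of_nonneg_right (min_le_right _ _) (rpow_nonneg hr.1.le c)).trans h.2⟩⟩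

/-- (F3) for `F` -/
theorem Lim.small_F {D : LD C} (L : Lim D) (γ : Γ) {a : C.I} {K : Set (Cm n)} (hK : IsCompact K)
    (hKB : K ⊆ C.B 4 a) {ν c : ℝ} (hs : ∀ z ∈ K, C.Small L.F ν (C.pt γ a z)) (hν : ν < c)
    (hc : 0 ≤ c) : ∃ κ > (0 : ℝ), ∃ δ > (0 : ℝ),
      (∀ z ∈ K, ∀ r ∈ Ioc 0 δ, ∃ z' ∈ closedBall z r, κ * r ^ c ≤ L.F (C.pt γ a z')) ∧
      ∀ᶠ j in atTop, ∀ z ∈ K, ∀ r ∈ Ioc 0 δ,
        ∃ z' ∈ closedBall z r, κ * r ^ c ≤ D.F j (C.pt γ a z') := by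
  have hφ : ∀ y ∈ C.B 4 a, ContinuousAt (fun w => exp (D.A * C.ρ a w)) y ∧
      0 < exp (D.A * C.ρ a y) := fun y hy => ⟨(C.contAt_exp _ a hy).rexp, exp_pos _⟩
  have hs' := fun z hz => hs z hz γ a z (hKB hz) rfl
  exact both_of (small_unif' (C.fB_open 4 a) hφ
      (by simpa only [C.fpt_eq γ, L.F_inv] using L.F_psh a) hK hKB hs' hν hc)
    (small_unif (L.F_lim.chart C γ a) (C.fB_open 4 a) hφ (Eventually.of_forall fun j => by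
      simpa only [C.fpt_eq γ, D.F_inv] using D.F_psh j a) hK hKB hs' hν hc)

/-- (F3) for `W` -/
theorem Lim.small_W {D : LD C} (L : Lim D) (l : ℕ) (γ : Γ) {a b : C.I} {K : Set (Cm n × Cm n)}
    (hK : IsCompact K) (hKB : K ⊆ C.B 4 a ×ˢ C.B 4 b) {ν c : ℝ}
    (hs : ∀ q ∈ K, SmallAt (fun q : Cm n × Cm n => L.W l (C.pt 1 a q.1) (C.pt γ b q.2)) ν q)
    (hν : ν < c) (hc : 0 ≤ c) : ∃ κ > (0 : ℝ), ∃ δ > (0 : ℝ),
      (∀ q ∈ K, ∀ r ∈ Ioc 0 δ, ∃ q' ∈ closedBall q r,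
        κ * r ^ c ≤ L.W l (C.pt 1 a q'.1) (C.pt γ b q'.2)) ∧
      ∀ᶠ j in atTop, ∀ q ∈ K, ∀ r ∈ Ioc 0 δ, ∃ q' ∈ closedBall q r,
        κ * r ^ c ≤ D.W l j (C.pt 1 a q'.1) (C.pt γ b q'.2) := by
  have hφ : ∀ q ∈ C.B 4 a ×ˢ C.B 4 b, ContinuousAt (fun q : Cm n × Cm n =>
      exp (D.A * C.ρ a q.1 + D.A * C.ρ b q.2)) q ∧ 0 < exp (D.A * C.ρ a q.1 + D.A * C.ρ b q.2) :=
    fun q hq => ⟨(((C.contAt_exp _ a hq.1).comp continuousAt_fst).add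
      ((C.contAt_exp _ b hq.2).comp continuousAt_snd)).rexp, exp_pos _⟩
  have o := (C.fB_open 4 a).prod (C.fB_open 4 b)
  exact both_of (small_unif' o hφ (L.W_psh l γ a b) hK hKB hs hν hc)
    (small_unif ((L.W_lim l).chart₂ C 1 γ a b) o hφ (Eventually.of_forall fun j =>
      D.W_psh l j γ a b) hK hKB hs hν hc)

end Vale.Agent.P284Z
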