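import Vale.Agent.P284Z.F0.Cov
import Vale.Agent.P284Z.A.Tr

/-!
# P284Z, block F0: the action on `ℓ²` and the change of charts for `HSec`
-/

set_option linter.all false

open scoped Topology ENNReal
open Filter Set Metric

noncomputable section

namespace Vale.Agent.P284Z

open Vale.Agent.P272.K

variable {n : ℕ} {Γ E : Type} [Group Γ] [TopologicalSpace E] [MulAction Γ E]

/-- the action of `Γ` on `ℓ²(ι)` -/
def IX.U (J : IX Γ) (γ : Γ) : J.H →ₗᵢ[ℂ] J.H where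
  toFun x := ⟨fun i => x (γ⁻¹ • i), memℓp_gen
    ((MulAction.toPerm γ⁻¹ : J.ι ≃ J.ι).summable_iff.2 ((lp.memℓp x).summable (by norm_num)))⟩
  map_add' _ _ := rfl
  map_smul' _ _ := rfl
  norm_map' x := by
    rw [lp.norm_eq_tsum_rpow (by norm_num), lp.norm_eq_tsum_rpow (by norm_num)]
    congr 1
    exact (MulAction.toPerm γ⁻¹ : J.ι ≃ J.ι).tsum_eq fun i => ‖x i‖ ^ (2 : ℝ≥0∞).toReal

theorem IX.U_apply (J : IX Γ) (γ : Γ) (x : J.H) (i : J.ι) : J.U γ x i = x (γ⁻¹ • i) := rfl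

theorem IX.U_mul (J : IX Γ) (γ γ' : Γ) (x : J.H) : J.U (γ * γ') x = J.U γ (J.U γ' x) :=
  lp.ext (funext fun i => by simp only [IX.U_apply, mul_inv_rev, mul_smul])

theorem IX.U_one (J : IX Γ) (x : J.H) : J.U 1 x = x :=
  lp.ext (funext fun i => by simp only [IX.U_apply, inv_one, one_smul])

/-- evaluation of a coordinate -/
def IX.ev (J : IX Γ) (i : J.ι) : J.H →L[ℂ] ℂ :=
  LinearMap.mkContinuous ⟨⟨fun x => x i, fun _ _ => rfl⟩, fun _ _ => rfl⟩ 1 fun x => by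
    rw [one_mul]
    exact lp.norm_apply_le_norm (by norm_num) x i

theorem IX.ev_apply (J : IX Γ) (i : J.ι) (x : J.H) : J.ev i x = x i := rfl

variable {C : Cov n Γ E} {P : Pol C} {J : IX Γ} {m : ℕ} (V : HSec P J m) {γ : Γ} {a b : C.I}
  {z : Cm n}

theorem HSec.val_eq (γ : Γ) (a : C.I) (z : Cm n) (i : J.ι) :
    V.val γ a z i = J.U γ (V.L a z) i := rfl

theorem HSec.an_val (hz : z ∈ C.B 4 a) (γ : Γ) (i : J.ι) :
    AnalyticAt ℂ (fun w => V.val γ a w i) z :=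
  ((J.ev (γ⁻¹ • i)).analyticAt _).comp (V.an a z hz)

theorem Pol.σ_pos (P : Pol C) (hz : z ∈ C.B 4 a) (h : P.s a z ≠ 0) (γ : Γ) :
    0 < P.σ (C.pt γ a z) := by
  rw [P.σ_eq γ a z hz]
  positivity

/-- the change of charts -/
theorem HSec.L_ch (h : C.Ov γ a b z) : ∃ g : Cm n → ℂ, AnalyticAt ℂ g z ∧ g z ≠ 0 ∧
    ∀ᶠ w in 𝓝 z, V.L a w = g w ^ m • J.U γ⁻¹ (V.L b (C.tr γ a b w)) ∧
      P.s a w = g w * P.s b (C.tr γ a b w) ∧
      C.ρ a w = C.ρ b (C.tr γ a b w) + Real.log (‖g w‖ ^ 2) := by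
  obtain ⟨g, h1, h2, h3⟩ := P.s_ch γ a b z h
  refine ⟨g, h1, h2, ?_⟩
  filter_upwards [h1.eventually_analyticAt, eventually_eventually_nhds.2 (h3.and (C.ev_Ov h))]
    with w hg hw
  have ho := hw.self_of_nhds.2
  refine ⟨lp.ext (funext fun i => ?_), hw.self_of_nhds.1⟩
  refine A.ext_of_ne P ho.1 (f := fun w => V.L a w i)
    (g := fun w => g w ^ m * V.L b (C.tr γ a b w) (γ⁻¹⁻¹ • i))
    (((J.ev i).analyticAt _).comp (V.an a w ho.1)).continuousAt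
    ((hg.pow m).mul (((J.ev (γ⁻¹⁻¹ • i)).analyticAt _).comp
      ((V.an b _ (C.tr_mem ho)).comp (C.an_tr ho)))).continuousAt (hw.mono fun u hu hs => ?_)
  have hb : P.s b (C.tr γ a b u) ≠ 0 := fun e => hs (by rw [hu.1.1, e, mul_zero])
  rw [V.eq a u hu.2.1 hs, V.eq b _ (C.tr_mem hu.2) hb, C.pt_tr hu.2, one_mul, C.pt_eq γ, inv_inv,
    hu.1.1, mul_pow]
  simp only [lp.coeFn_smul, Pi.smul_apply, smul_eq_mul]
  rw [V.eqv γ _ i (P.σ_pos hu.2.1 hs 1), mul_assoc]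

/-- the change of charts, in coordinates -/
theorem HSec.val_ch (h : C.Ov γ a b z) : ∃ g : Cm n → ℂ, AnalyticAt ℂ g z ∧ g z ≠ 0 ∧
    ∀ᶠ w in 𝓝 z, (∀ γ' i, V.val (γ' * γ) a w i = g w ^ m * V.val γ' b (C.tr γ a b w) i) ∧
      C.ρ a w = C.ρ b (C.tr γ a b w) + Real.log (‖g w‖ ^ 2) := by
  obtain ⟨g, h1, h2, h3⟩ := V.L_ch h
  refine ⟨g, h1, h2, h3.mono fun w hw => ⟨fun γ' i => ?_, hw.2.2⟩⟩
  rw [HSec.val, hw.1, HSec.val]
  simp only [lp.coeFn_smul, Pi.smul_apply, smul_eq_mul, IX.U_apply, inv_inv, mul_inv_rev, mul_smul,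
    smul_inv_smul]

/-- the norm does not depend on the chart -/
theorem HSec.nm_ch (h : C.Ov γ a b z) : V.nm a z = V.nm b (C.tr γ a b z) := by
  obtain ⟨g, -, h2, h3⟩ := V.L_ch h
  obtain ⟨h4, -, h5⟩ := h3.self_of_nhds
  have h6 : 0 < ‖g z‖ ^ 2 := by positivity
  rw [HSec.nm, HSec.nm, h4, h5, norm_smul, LinearIsometry.norm_map, norm_pow, mul_add, Real.exp_add,
    neg_mul _ (Real.log _), Real.exp_neg (_ * Real.log _), Real.exp_nat_mul, Real.exp_log h6]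
  field_simp
  ring

end Vale.Agent.P284Z
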