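import Vale.Agent.P284Z.F.Lp

/-!
# P284Z, block F0: subharmonic functions of one variable, from local to global
-/

set_option linter.unusedVariables false

open scoped Topology
open Filter Set Metric MeasureTheory Real

noncomputable section

namespace Vale.Agent.P284Z

export Z (le_lg exp_lg lg_anti lg_le_iff lg_lt_iff)

namespace F0

variable {h h' : ℂ → ℝ} {c : ℂ} {r R M b : ℝ} {K : Set ℂ}

theorem circ_int (hu : UpperSemicontinuousOn h (sphere c |R|)) (hb : ∀ ζ ∈ sphere c |R|, b ≤ h ζ) :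
    CircleIntegrable h c R := by
  have hm := circleMap_mem_sphere' c R
  have h1 : UpperSemicontinuous (h ∘ circleMap c R) := by
    rw [← upperSemicontinuousOn_univ_iff]
    exact hu.comp (continuous_circleMap c R).continuousOn fun θ _ => hm θ
  obtain ⟨M, hM⟩ := hu.bddAbove_of_isCompact (isCompact_sphere c |R|)
  refine (intervalIntegrable_const (c := max (-b) M)).mono_fun'
    h1.measurable.aestronglyMeasurable (Eventually.of_forall fun θ => ?_)
  exact abs_le.2 ⟨by linarith [le_max_left (-b) M, hb _ (hm θ)],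
    (hM (mem_image_of_mem h (hm θ))).trans (le_max_right _ M)⟩

theorem fatou_int {ι : Type} {𝓕 : Filter ι} [𝓕.IsCountablyGenerated] {v : ι → ℝ → ℝ}
    {f : ℝ → ℝ} {a ε : ℝ} (ha : 0 ≤ a) (hf : IntervalIntegrable f volume 0 a)
    (hv : ∀ᶠ i in 𝓕, IntervalIntegrable (v i) volume 0 a ∧ ∀ θ, v i θ ≤ M)
    (hl : ∀ θ, 0 ≤ θ → ∀ t > f θ, ∀ᶠ i in 𝓕, v i θ < t) (hε : 0 < ε) :
    ∀ᶠ i in 𝓕, ∫ θ in (0 : ℝ)..a, v i θ ≤ (∫ θ in (0 : ℝ)..a, f θ) + ε := by
  have mx : ∀ i, IntervalIntegrable (v i) volume 0 a →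
      IntervalIntegrable (fun θ => max (v i θ) (f θ)) volume 0 a :=
    fun i hi => ⟨hi.1.sup hf.1, hi.2.sup hf.2⟩
  have key := intervalIntegral.tendsto_integral_filter_of_dominated_convergence (μ := volume)
    (l := 𝓕) (F := fun i θ => max (v i θ) (f θ)) (f := f) (a := 0) (b := a)
    (fun θ => |f θ| + |M|)
    (hv.mono fun i hi => (mx i hi.1).aestronglyMeasurable_restrict_uIoc)
    (hv.mono fun i hi => Eventually.of_forall fun θ _ => abs_le.2
      ⟨by linarith [le_max_right (v i θ) (f θ), neg_abs_le (f θ), abs_nonneg M],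
        max_le (by linarith [hi.2 θ, le_abs_self M, abs_nonneg (f θ)])
          (by linarith [le_abs_self (f θ), abs_nonneg M])⟩)
    (hf.abs.add intervalIntegrable_const)
    (Eventually.of_forall fun θ hθ => tendsto_order.2
      ⟨fun t ht => Eventually.of_forall fun i => ht.trans_le (le_max_right _ _),
        fun t ht => (hl θ (by rw [uIoc_of_le ha] at hθ; exact hθ.1.le) t ht).mono
          fun i hi => max_lt hi ht⟩)
  filter_upwards [hv, key.eventually (gt_mem_nhds (lt_add_of_pos_right _ hε))] with i h1 h2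
  exact (intervalIntegral.integral_mono ha h1.1 (mx i h1.1) fun θ => le_max_left _ _).trans h2.le

theorem avg_clm {H : Type} [NormedAddCommGroup H] [NormedSpace ℂ H] [CompleteSpace H] (L : H →L[ℝ] ℝ) {f : ℂ → H}
    (hf : ∀ ζ ∈ closedBall c |r|, DifferentiableAt ℂ f ζ) :
    CircleIntegrable (fun ζ => L (f ζ)) c r ∧ circleAverage (fun ζ => L (f ζ)) c r = L (f c) := by
  have hc : ContinuousOn f (sphere c |r|) := fun ζ hζ =>
    (hf ζ (sphere_subset_closedBall hζ)).continuousAt.continuousWithinAt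
  refine ⟨(L.continuous.comp_continuousOn hc).circleIntegrable', ?_⟩
  rw [← circleAverage_of_differentiable_on_off_countable (c := c) (R := r) countable_empty
    (fun ζ hζ => (hf ζ hζ).continuousAt.continuousWithinAt)
    fun ζ hζ => hf ζ (ball_subset_closedBall hζ.1)]
  exact L.circleAverage_comp_comm hc.circleIntegrable'

theorem avg_rot {ω : ℂ} (hω : ‖ω‖ = 1) (h : ℂ → ℝ) (c : ℂ) (r : ℝ) :
    circleAverage (fun ζ => h (ω * ζ)) c r = circleAverage h (ω * c) r := by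
  rw [circleAverage_eq_integral_add (f := h) ω.arg, circleAverage]
  congr 2
  ext θ
  have := Complex.norm_mul_exp_arg_mul_I ω
  rw [hω, Complex.ofReal_one, one_mul] at this
  simp only [circleMap, Complex.ofReal_add, add_mul, Complex.exp_add, this]
  ring_nf

/-- the infinitesimal sub-mean property -/
def LS (h : ℂ → ℝ) (c : ℂ) : Prop :=
  ∀ η > (0 : ℝ), ∀ᶠ r in 𝓝[>] (0 : ℝ), h c ≤ circleAverage h c r + η * r ^ 2

theorem ev_sub {Y : Type} [PseudoMetricSpace Y] {K : Set Y} {c : Y} (hK : K ∈ 𝓝 c) :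
    ∀ᶠ r in 𝓝[>] (0 : ℝ), closedBall c |r| ⊆ K := by
  filter_upwards [self_mem_nhdsWithin, mem_nhdsWithin_of_mem_nhds (eventually_closedBall_subset hK)]
    with r h1 h2
  rwa [abs_of_pos h1]

/-- the maximum principle -/
theorem max_one (hK : IsCompact K) (hu : UpperSemicontinuousOn h K) (hb : ∀ ζ ∈ K, b ≤ h ζ)
    (hl : ∀ c, K ∈ 𝓝 c → LS h c) (hM : ∀ ζ ∈ K, K ∉ 𝓝 ζ → h ζ ≤ M) : ∀ ζ ∈ K, h ζ ≤ M := by
  intro z hz
  by_contra hn
  obtain ⟨R, hR0, hR⟩ := hK.isBounded.subset_closedBall_lt 0 0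
  obtain ⟨ε, hε, e⟩ : ∃ ε > (0 : ℝ), ε * R ^ 2 < h z - M :=
    ⟨(h z - M) / (2 * R ^ 2), div_pos (by linarith) (by positivity), by
      rw [show (h z - M) / (2 * R ^ 2) * R ^ 2 = (h z - M) / 2 by field_simp]; linarith⟩
  obtain ⟨c, hc, hm⟩ := (hu.add (show ContinuousOn (fun ζ : ℂ => ε * ‖ζ‖ ^ 2) K by
    fun_prop).upperSemicontinuousOn).exists_isMaxOn ⟨z, hz⟩ hK
  have h1 : K ∈ 𝓝 c := by
    by_contra h1
    have a : h z + ε * ‖z‖ ^ 2 ≤ h c + ε * ‖c‖ ^ 2 := hm hz
    have b := mul_le_mul_of_nonneg_left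
      (pow_le_pow_left₀ (norm_nonneg c) (mem_closedBall_zero_iff.1 (hR hc)) 2) hε.le
    nlinarith [hM c hc h1, mul_nonneg hε.le (sq_nonneg ‖z‖)]
  obtain ⟨r, ⟨r1, r2⟩, r0⟩ := (((hl c h1 (ε / 2) (by positivity)).and (ev_sub h1)).and
    self_mem_nhdsWithin).exists
  have r3 := sphere_subset_closedBall.trans r2
  obtain ⟨i1, i2⟩ := avg_clm (c := c) (r := r) Complex.reCLM
    (f := fun ζ => ((h c - ε * r ^ 2 : ℝ) : ℂ) - 2 * ε * (starRingEnd ℂ c * (ζ - c)))
    (fun ζ _ => by fun_prop)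
  have i3 := circleAverage_mono (circ_int (hu.mono r3) fun ζ hζ => hb ζ (r3 hζ)) i1 fun ζ hζ => by
    have a : h ζ + ε * ‖ζ‖ ^ 2 ≤ h c + ε * ‖c‖ ^ 2 := hm (r3 hζ)
    have b : ‖ζ - c‖ ^ 2 = r ^ 2 := by rw [mem_sphere_iff_norm.1 hζ, sq_abs]
    simp only [Complex.sq_norm, Complex.normSq_apply, Complex.sub_re, Complex.sub_im] at a b
    simp [-Complex.ofReal_pow, ← b]
    nlinarith
  rw [i2] at i3
  simp [-Complex.ofReal_pow] at i3
  nlinarith [mul_pos hε (pow_pos (mem_Ioi.1 r0) 2)]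

theorem step_int (g : ℕ → ℝ) {B x : ℝ} (hg : ∀ k, |g k| ≤ B) (hx : 0 < x) (N : ℕ) :
    IntervalIntegrable (fun θ : ℝ => g ⌊θ * x⌋₊) volume 0 (N / x) ∧
      ∫ θ in (0 : ℝ)..N / x, g ⌊θ * x⌋₊ = (∑ k ∈ Finset.range N, g k) / x := by
  have hi : ∀ a b, IntervalIntegrable (fun θ : ℝ => g ⌊θ * x⌋₊) volume a b := fun a b =>
    (intervalIntegrable_const (c := B)).mono_fun' ((measurable_from_top (f := g)).comp
      (measurable_id.mul_const x).nat_floor).aestronglyMeasurable (Eventually.of_forall fun θ => hg _)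
  refine ⟨hi _ _, ?_⟩
  have := intervalIntegral.sum_integral_adjacent_intervals (a := fun k : ℕ => (k : ℝ) / x) (n := N)
    fun k _ => hi _ _
  simp only [Nat.cast_zero, zero_div] at this
  rw [← this, Finset.sum_div]
  refine Finset.sum_congr rfl fun k _ => ?_
  rw [intervalIntegral.integral_congr_ae (g := fun _ => g k), intervalIntegral.integral_const,
    smul_eq_mul]
  · push_cast
    field_simp
    ring
  · filter_upwards [Measure.ae_ne volume (((k + 1 : ℕ) : ℝ) / x)] with θ h1 h2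
    rw [uIoc_of_le (div_le_div_of_nonneg_right (by simp) hx.le)] at h2
    have a := (div_lt_iff₀ hx).1 h2.1
    have b := (lt_div_iff₀ hx).1 (lt_of_le_of_ne h2.2 h1)
    rw [(Nat.floor_eq_iff (le_trans k.cast_nonneg a.le)).2 ⟨a.le, by exact_mod_cast b⟩]

/-- from the infinitesimal to the global sub-mean property -/
theorem core (hu : UpperSemicontinuousOn h (closedBall 0 1)) (hb : ∀ ζ ∈ closedBall 0 1, b ≤ h ζ)
    (hl : ∀ c : ℂ, ‖c‖ < 1 → LS h c) : h 0 ≤ circleAverage h 0 1 := by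
  have mm : ∀ {ω : ℂ}, ‖ω‖ = 1 → MapsTo (fun ζ => ω * ζ) (closedBall 0 1) (closedBall 0 1) :=
    fun hω ζ hζ => by simpa [hω] using hζ
  have uu : ∀ {ω : ℂ}, ‖ω‖ = 1 → UpperSemicontinuousOn (fun ζ => h (ω * ζ)) (closedBall 0 1) :=
    fun hω => hu.comp (by fun_prop) (mm hω)
  have A : ∀ (N : ℕ) (ω : ℕ → ℂ), (∀ k, ‖ω k‖ = 1) → ∃ ζ ∈ sphere (0 : ℂ) 1,
      N * h 0 ≤ ∑ k ∈ Finset.range N, h (ω k * ζ) := by
    intro N ω hω
    have u1 := upperSemicontinuousOn_sum (a := Finset.range N) fun k _ => uu (hω k)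
    obtain ⟨ζ, h1, h2⟩ := (u1.mono sphere_subset_closedBall).exists_isMaxOn
      ⟨1, by simp⟩ (isCompact_sphere 0 1)
    refine ⟨ζ, h1, le_trans (by simp) (max_one (isCompact_closedBall 0 1) u1 (b := N * b)
      (fun ζ hζ => ?_) (fun c hc η hη => ?_) (fun ζ' a a' => h2 ?_) 0 (by simp))⟩
    · simpa using Finset.card_nsmul_le_sum (Finset.range N) _ b fun k _ => hb _ (mm (hω k) hζ)
    · have c1 : ‖c‖ < 1 := by
        rwa [← mem_interior_iff_mem_nhds, interior_closedBall _ one_ne_zero, mem_ball_zero_iff] at hc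
      filter_upwards [ev_sub hc, (Finset.range N).eventually_all.2 fun k _ =>
        hl (ω k * c) (by simpa [hω] using c1) (η / (N + 1)) (by positivity)] with r r1 r2
      have r3 := sphere_subset_closedBall.trans r1
      rw [circleAverage_fun_sum fun k _ =>
        circ_int ((uu (hω k)).mono r3) fun ζ hζ => hb _ (mm (hω k) (r3 hζ))]
      refine (Finset.sum_le_sum r2).trans ?_
      simp only [Finset.sum_add_distrib, avg_rot (hω _), Finset.sum_const, Finset.card_range,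
        nsmul_eq_mul]
      have : (N : ℝ) * (η / (N + 1)) ≤ η := by
        rw [← mul_div_assoc, div_le_iff₀ (by positivity)]; nlinarith
      nlinarith [sq_nonneg r]
    · refine le_antisymm a (not_lt.1 fun h3 => a' ?_)
      exact mem_of_superset (isOpen_ball.mem_nhds h3) ball_subset_closedBall
  obtain ⟨M, hM⟩ := hu.bddAbove_of_isCompact (isCompact_closedBall 0 1)
  set x : ℕ → ℝ := fun N => (N + 1 : ℕ) / (2 * π) with hx
  have x0 : ∀ N, 0 < x N := fun N => by positivity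
  choose ζ h1 h2 using fun N => A (N + 1) (fun k => circleMap 0 1 (k / x N)) fun k => by simp
  obtain ⟨ω, hω, φ, hφ, t⟩ := (isCompact_sphere (0 : ℂ) 1).tendsto_subseq h1
  have hω' : ‖ω‖ = 1 := mem_sphere_zero_iff_norm.1 hω
  have m1 : ∀ (θ : ℝ) {ζ : ℂ}, ζ ∈ sphere (0 : ℂ) 1 → circleMap 0 1 θ * ζ ∈ closedBall (0 : ℂ) 1 :=
    fun θ ζ hζ => mm (by simp) (sphere_subset_closedBall hζ)
  have S := fun N => step_int (fun k => h (circleMap 0 1 (k / x N) * ζ N)) (B := max (-b) M)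
    (fun k => abs_le.2 ⟨by linarith [le_max_left (-b) M, hb _ (m1 (k / x N) (h1 N))],
      (hM (mem_image_of_mem h (m1 _ (h1 N)))).trans (le_max_right _ M)⟩) (x0 N) (N + 1)
  have e : ∀ N, ((N + 1 : ℕ) : ℝ) / x N = 2 * π := fun N => by simp only [hx]; field_simp
  simp only [e] at S
  have I : CircleIntegrable (fun ζ => h (ω * ζ)) 0 1 := circ_int
    ((uu hω').mono (by simpa using sphere_subset_closedBall)) fun ζ hζ =>
      hb _ (mm hω' (sphere_subset_closedBall (by simpa using hζ)))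
  rw [← mul_zero ω, ← avg_rot hω', mul_zero, circleAverage, smul_eq_mul,
    le_inv_mul_iff₀ two_pi_pos]
  refine le_of_forall_pos_le_add fun ε hε => ?_
  refine (fatou_int (𝓕 := atTop) (M := M) two_pi_pos.le I
    (Eventually.of_forall fun N => ⟨(S (φ N)).1, fun θ => hM (mem_image_of_mem h (m1 _ (h1 _)))⟩)
    (fun θ hθ s hs => ?_) hε).exists.elim fun N hN => ?_
  · have t1 : Tendsto (fun N => x (φ N)) atTop atTop :=
      (tendsto_natCast_atTop_atTop.comp ((tendsto_add_atTop_nat 1).comp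
        hφ.tendsto_atTop)).atTop_div_const two_pi_pos
    have t2 := (((continuous_circleMap 0 1).tendsto θ).comp
      ((tendsto_nat_floor_mul_div_atTop hθ).comp t1)).mul t
    simp only [mul_comm ω] at hs
    exact (tendsto_nhdsWithin_iff.2 ⟨t2, Eventually.of_forall fun N => m1 _ (h1 _)⟩).eventually
      (hu _ (m1 θ hω) s hs)
  · rw [(S _).2] at hN
    refine le_trans ?_ hN
    rw [le_div_iff₀ (x0 _), ← e (φ N)]
    exact le_trans (le_of_eq (by have := (x0 (φ N)).ne'; field_simp)) (h2 _)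

end F0

/-- reverse Fatou lemma on a circle -/
theorem fatou_circle {ι : Type} {𝓕 : Filter ι} [𝓕.IsCountablyGenerated] {v : ι → ℂ → ℝ}
    {f : ℂ → ℝ} {c : ℂ} {R M ε : ℝ} (hf : CircleIntegrable f c R)
    (hv : ∀ᶠ i in 𝓕, CircleIntegrable (v i) c R ∧ ∀ ζ ∈ sphere c |R|, v i ζ ≤ M)
    (hl : ∀ ζ ∈ sphere c |R|, ∀ t > f ζ, ∀ᶠ i in 𝓕, v i ζ < t) (hε : 0 < ε) :
    ∀ᶠ i in 𝓕, circleAverage (v i) c R ≤ circleAverage f c R + ε := by
  filter_upwards [F0.fatou_int (M := M) two_pi_pos.le hf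
    (hv.mono fun i hi => ⟨hi.1, fun θ => hi.2 _ (circleMap_mem_sphere' c R θ)⟩)
    (fun θ _ => hl _ (circleMap_mem_sphere' c R θ)) (mul_pos two_pi_pos hε)] with i hi
  rw [circleAverage, circleAverage, smul_eq_mul, smul_eq_mul, inv_mul_le_iff₀ two_pi_pos, mul_add,
    mul_inv_cancel_left₀ two_pi_pos.ne']
  exact hi

end Vale.Agent.P284Z
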