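import Vale.Agent.P284Z.F0.One

/-!
# P284Z, block F0: `lg`, `LB`, circles, from local to global
-/

set_option linter.unusedVariables false

open scoped Topology
open Filter Set Metric MeasureTheory Real

noncomputable section

namespace Vale.Agent.P284Z

theorem continuous_lg (T : ℝ) : Continuous (lg T) := lg_cont T

theorem lg_of_le {T x : ℝ} (h : x ≤ exp (-T)) : lg T x = -T := by rw [lg, max_eq_right h, log_exp]

theorem lg_of_ge {T x : ℝ} (h : exp (-T) ≤ x) : lg T x = log x := by rw [lg, max_eq_left h]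

theorem lg_eq_max (T : ℝ) {x : ℝ} (hx : 0 < x) : lg T x = max (log x) (-T) := by
  rcases le_total x (exp (-T)) with h | h
  · rw [lg_of_le h, max_eq_right ((log_le_iff_le_exp hx).2 h)]
  · rw [lg_of_ge h, max_eq_left ((le_log_iff_exp_le hx).2 h)]

theorem lg_zero (T : ℝ) : lg T 0 = -T := lg_of_le (exp_pos _).le

theorem ev_lg {x : ℝ} (hx : 0 < x) : ∀ᶠ T in atTop, lg T x = log x :=
  (eventually_ge_atTop (-log x)).mono fun T hT => by rw [lg_eq_max T hx, max_eq_left (by linarith)]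

section lb
variable {Y Y' : Type} [TopologicalSpace Y] [TopologicalSpace Y'] {u v : Y → ℝ} {U U' K : Set Y}
  {c R : ℝ}

/-- locally bounded below -/
def LB (u : Y → ℝ) (U : Set Y) : Prop := ∀ z ∈ U, ∃ c, ∀ᶠ z' in 𝓝[U] z, c ≤ u z'

theorem LB.of_le (c : ℝ) (h : ∀ z ∈ U, c ≤ u z) : LB u U :=
  fun _ _ => ⟨c, eventually_mem_nhdsWithin.mono h⟩

theorem LB.of_cont (h : ContinuousOn u U) : LB u U :=
  fun z hz => ⟨u z - 1, (h z hz).eventually (le_mem_nhds (sub_one_lt _))⟩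

theorem LB.mono (h : LB u U) (hU : U' ⊆ U) : LB u U' :=
  fun z hz => (h z (hU hz)).imp fun _ hc => hc.filter_mono (nhdsWithin_mono _ hU)

theorem LB.ge (h : LB u U) (hv : ∀ z ∈ U, u z ≤ v z) : LB v U := fun z hz => (h z hz).imp
  fun _ hc => (hc.and eventually_mem_nhdsWithin).mono fun y hy => hy.1.trans (hv y hy.2)

theorem LB.add (h : LB u U) (h' : LB v U) : LB (fun z => u z + v z) U := fun z hz =>
  (h z hz).elim fun a ha => (h' z hz).elim fun b hb =>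
    ⟨a + b, (ha.and hb).mono fun _ hy => add_le_add hy.1 hy.2⟩

theorem LB.map (h : LB u U) {χ : ℝ → ℝ} (hm : Monotone χ) : LB (fun z => χ (u z)) U :=
  fun z hz => (h z hz).elim fun a ha => ⟨χ a, ha.mono fun _ hy => hm hy⟩

theorem LB.const_mul (h : LB u U) (hc : 0 ≤ c) : LB (fun z => c * u z) U :=
  h.map (monotone_mul_left_of_nonneg hc)

theorem LB.comp (h : LB u U) {g : Y' → Y} {O : Set Y'} (hg : ContinuousOn g O) (hm : MapsTo g O U) :
    LB (fun x => u (g x)) O := fun z hz => (h _ (hm hz)).imp fun _ hc =>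
  ((hg z hz).tendsto_nhdsWithin hm).eventually hc

theorem LB.bdd (h : LB u U) (hK : IsCompact K) (hKU : K ⊆ U) : ∃ c, ∀ z ∈ K, c ≤ u z := by
  refine hK.induction_on (p := fun S => ∃ c, ∀ z ∈ S, c ≤ u z) ⟨0, fun _ h => h.elim⟩
    (fun s t hst ⟨c, hc⟩ => ⟨c, fun z hz => hc z (hst hz)⟩)
    (fun s t ⟨a, ha⟩ ⟨b, hb⟩ => ⟨min a b, fun z hz => hz.elim
      (fun hz => (min_le_left _ _).trans (ha z hz)) fun hz => (min_le_right _ _).trans (hb z hz)⟩)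
    fun z hz => (h.mono hKU z hz).elim fun c hc => ⟨_, hc, c, fun _ h => h⟩

theorem lb_lg (T : ℝ) (P : Y → ℝ) (U : Set Y) : LB (fun z => lg T (P z)) U :=
  .of_le (-T) fun _ _ => le_lg _ _

theorem lb_const (c : ℝ) (U : Set Y) : LB (fun _ => c) U := .of_le c fun _ _ => le_rfl

theorem usc_bdd (h : UpperSemicontinuousOn u U) (hK : IsCompact K) (hKU : K ⊆ U) :
    ∃ M > (0 : ℝ), ∀ z ∈ K, u z ≤ M := by
  obtain ⟨M, hM⟩ := (h.mono hKU).bddAbove_of_isCompact hK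
  exact ⟨max M 1, lt_max_of_lt_right one_pos, fun z hz => le_max_of_le_left (hM ⟨z, hz, rfl⟩)⟩

theorem usc_congr (h : UpperSemicontinuousOn u U) (e : EqOn v u U) : UpperSemicontinuousOn v U :=
  fun z hz t ht => ((h z hz t ((e hz).symm.trans_lt ht)).and eventually_mem_nhdsWithin).mono
    fun _ hy => (e hy.2).trans_lt hy.1

theorem usc_map (h : UpperSemicontinuousOn u U) {χ : ℝ → ℝ} (hc : Continuous χ) (hm : Monotone χ) :
    UpperSemicontinuousOn (fun z => χ (u z)) U := hc.comp_upperSemicontinuousOn h hm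

theorem usc_of_loc (h : ∀ z ∈ U, ∃ N ∈ 𝓝 z, UpperSemicontinuousOn u N) :
    UpperSemicontinuousOn u U := fun z hz t ht => by
  obtain ⟨N, hN, h⟩ := h z hz
  have := h z (mem_of_mem_nhds hN) t ht
  rw [nhdsWithin_eq_nhds.2 hN] at this
  exact this.filter_mono nhdsWithin_le_nhds

theorem circleIntegrable_of_usc (hu : UpperSemicontinuousOn u U) (hb : LB u U) {g : ℂ → Y} {a : ℂ}
    (hg : ContinuousOn g (sphere a |R|)) (hm : MapsTo g (sphere a |R|) U) :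
    CircleIntegrable (fun ζ => u (g ζ)) a R :=
  ((hb.comp hg hm).bdd (isCompact_sphere _ _) subset_rfl).elim fun _ h =>
    F0.circ_int (hu.comp hg hm) h

end lb

variable {W : Type} [NormedAddCommGroup W] [NormedSpace ℂ W] {u v P Q : W → ℝ} {U U' K : Set W}
  {z w y : W} {c M r R : ℝ}

theorem line_int (hu : UpperSemicontinuousOn u U) (hb : LB u U)
    (hU : ∀ ζ : ℂ, ‖ζ‖ ≤ |r| → z + ζ • w ∈ U) : CircleIntegrable (fun ζ : ℂ => u (z + ζ • w)) 0 r :=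
  circleIntegrable_of_usc hu hb (by fun_prop) fun ζ hζ => hU ζ (mem_sphere_zero_iff_norm.1 hζ).le

theorem line_int₁ (hu : UpperSemicontinuousOn u U) (hb : LB u U)
    (hU : ∀ ζ : ℂ, ‖ζ‖ ≤ 1 → z + ζ • w ∈ U) : CircleIntegrable (fun ζ : ℂ => u (z + ζ • w)) 0 1 :=
  line_int hu hb (by rwa [abs_one])

theorem avg_le (hu : UpperSemicontinuousOn u U) (hb : LB u U) (hv : UpperSemicontinuousOn v U)
    (hb' : LB v U) (h : ∀ z ∈ U, u z ≤ v z) (hU : ∀ ζ : ℂ, ‖ζ‖ ≤ |r| → z + ζ • w ∈ U) :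
    circleAverage (fun ζ : ℂ => u (z + ζ • w)) 0 r ≤ circleAverage (fun ζ : ℂ => v (z + ζ • w)) 0 r :=
  circleAverage_mono (line_int hu hb hU) (line_int hv hb' hU) fun ζ hζ =>
    h _ (hU ζ (mem_sphere_zero_iff_norm.1 hζ).le)

theorem disc_mem (hU : ∀ ζ : ℂ, ‖ζ‖ ≤ 1 → z + ζ • w ∈ U) : z ∈ U := by simpa using hU 0 (by simp)

theorem Psh.mono (h : Psh u U) (hU : U' ⊆ U) : Psh u U' :=
  ⟨h.1.mono hU, fun z w hw => h.2 z w fun ζ hζ => hU (hw ζ hζ)⟩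

theorem Psh.congr (h : Psh u U) (e : EqOn v u U) : Psh v U :=
  ⟨usc_congr h.1 e, fun z w hw => (e (disc_mem hw)).trans_le ((h.2 z w hw).trans_eq
    (circleAverage_congr_sphere fun ζ hζ => (e (hw ζ (le_of_eq (by simpa using hζ)))).symm))⟩

theorem LPsh.mono (h : LPsh P U) (hU : U' ⊆ U) : LPsh P U' := Z.lpsh_mono h hU

theorem LPsh.congr (h : LPsh P U) (e : EqOn Q P U) : LPsh Q U :=
  ⟨fun z hz => (h.1 z hz).trans_eq (e hz).symm, fun T => (h.2 T).congr fun _ hz => congrArg _ (e hz)⟩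

theorem LPsh.usc (h : LPsh P U) : UpperSemicontinuousOn P U := Z.lpsh_usc h

theorem LPsh.lb (h : LPsh P U) : LB P U := .of_le 0 h.1

theorem Psh.le_circle (h : Psh u U) (hU : ∀ ζ : ℂ, ‖ζ‖ ≤ |r| → z + ζ • w ∈ U) :
    u z ≤ circleAverage (fun ζ : ℂ => u (z + ζ • w)) 0 r := by
  rw [circleAverage_eq_circleAverage_zero_one]
  have e : ∀ ζ : ℂ, (r * ζ + 0) • w = ζ • (r : ℂ) • w := fun ζ => by
    rw [add_zero, mul_comm, mul_smul]
  simp only [e]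
  refine h.2 z _ fun ζ hζ => e ζ ▸ hU _ ?_
  rw [add_zero, norm_mul, Complex.norm_real, norm_eq_abs]
  exact mul_le_of_le_one_right (abs_nonneg r) hζ

theorem psh_const (c : ℝ) (U : Set W) : Psh (fun _ => c) U :=
  ⟨upperSemicontinuousOn_const, fun _ _ _ => (circleAverage_const c 0 1).ge⟩

/-- the infinitesimal sub-mean property -/
def LocSub (u : W → ℝ) (z : W) : Prop := ∀ w : W, ∀ η > (0 : ℝ), ∀ᶠ r in 𝓝[>] (0 : ℝ),
  u z ≤ circleAverage (fun ζ : ℂ => u (z + ζ • w)) 0 r + η * r ^ 2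

theorem ev_disc (hz : U ∈ 𝓝 z) (w : W) :
    ∀ᶠ r in 𝓝[>] (0 : ℝ), ∀ ζ : ℂ, ‖ζ‖ ≤ |r| → z + ζ • w ∈ U := by
  have : (fun ζ : ℂ => z + ζ • w) ⁻¹' U ∈ 𝓝 0 :=
    ContinuousAt.preimage_mem_nhds (by fun_prop) (by simpa using hz)
  exact (F0.ev_sub this).mono fun r h ζ hζ => h (mem_closedBall_zero_iff.2 hζ)

theorem Psh.locSub (h : Psh u U) (hz : U ∈ 𝓝 z) : LocSub u z := fun w η hη =>
  (ev_disc hz w).mono fun r hr => (h.le_circle hr).trans (le_add_of_nonneg_right (by positivity))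

theorem LocSub.ls {a : ℂ} (h : LocSub u (z + a • w)) : F0.LS (fun ζ : ℂ => u (z + ζ • w)) a :=
  fun η hη => (h w η hη).mono fun r hr => by
    rw [← circleAverage_map_add_const]
    simpa only [add_smul, add_assoc, add_comm (a • w)] using hr

theorem psh_of_locSub (hu : UpperSemicontinuousOn u U) (hb : LB u U) (h : ∀ z ∈ U, LocSub u z) :
    Psh u U := by
  refine ⟨hu, fun z w hw => ?_⟩
  have hm : MapsTo (fun ζ : ℂ => z + ζ • w) (closedBall 0 1) U := fun ζ hζ =>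
    hw ζ (mem_closedBall_zero_iff.1 hζ)
  obtain ⟨b, hb⟩ := (hb.comp (by fun_prop) hm).bdd (isCompact_closedBall _ _) subset_rfl
  simpa using F0.core (h := fun ζ : ℂ => u (z + ζ • w)) (hu.comp (by fun_prop) hm) hb
    fun c hc => (h _ (hw c hc.le)).ls

theorem psh_of_loc (hb : LB u U) (h : ∀ z ∈ U, ∃ N ∈ 𝓝 z, Psh u N) : Psh u U :=
  psh_of_locSub (usc_of_loc fun z hz => (h z hz).imp fun _ h => ⟨h.1, h.2.1⟩) hb
    fun z hz => (h z hz).elim fun _ h => h.2.locSub h.1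

theorem lpsh_of_loc (h : ∀ z ∈ U, ∃ N ∈ 𝓝 z, LPsh P N) : LPsh P U :=
  ⟨fun z hz => (h z hz).elim fun _ h => h.2.1 z (mem_of_mem_nhds h.1), fun T =>
    psh_of_loc (lb_lg T P U) fun z hz => (h z hz).imp fun _ h => ⟨h.1, h.2.2 T⟩⟩

theorem LocSub.of_le (h : LocSub v z) (hz : U ∈ 𝓝 z) (hu : UpperSemicontinuousOn u U) (hb : LB u U)
    (hv : UpperSemicontinuousOn v U) (hb' : LB v U) (h1 : ∀ y ∈ U, v y ≤ u y) (h2 : u z ≤ v z) :
    LocSub u z := fun w η hη => ((h w η hη).and (ev_disc hz w)).mono fun r hr =>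
  h2.trans (hr.1.trans (add_le_add_left (avg_le hv hb' hu hb h1 hr.2) _))

theorem psh_of_touch (hU : IsOpen U) (hu : UpperSemicontinuousOn u U) (hb : LB u U)
    (h : ∀ z ∈ U, ∃ N ∈ 𝓝 z, ∃ v, Psh v N ∧ LB v N ∧ (∀ z' ∈ N, v z' ≤ u z') ∧ v z = u z) :
    Psh u U := by
  refine psh_of_locSub hu hb fun z hz => ?_
  obtain ⟨N, hN, v, h1, h2, h3, h4⟩ := h z hz
  exact (h1.locSub hN).of_le (inter_mem hN (hU.mem_nhds hz)) (hu.mono inter_subset_right)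
    (hb.mono inter_subset_right) (h1.1.mono inter_subset_left) (h2.mono inter_subset_left)
    (fun y hy => h3 y hy.1) h4.ge

theorem lpsh_of_touch (hU : IsOpen U) (hu : UpperSemicontinuousOn P U) (h0 : ∀ z ∈ U, 0 ≤ P z)
    (h : ∀ z ∈ U, 0 < P z → ∃ N ∈ 𝓝 z, ∃ Q, LPsh Q N ∧ (∀ z' ∈ N, Q z' ≤ P z') ∧ Q z = P z) :
    LPsh P U := by
  refine ⟨h0, fun T => psh_of_touch hU (usc_map hu (lg_cont T) (lg_mono T)) (lb_lg T P U)
    fun z hz => ?_⟩
  rcases (h0 z hz).eq_or_lt with e | e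
  · exact ⟨univ, univ_mem, fun _ => -T, psh_const _ _, lb_const _ _, fun _ _ => le_lg _ _,
      by rw [← e, lg_zero]⟩
  · obtain ⟨N, hN, Q, h1, h2, h3⟩ := h z hz e
    exact ⟨N, hN, _, h1.2 T, lb_lg T Q N, fun y hy => lg_mono T (h2 y hy), congrArg _ h3⟩

theorem psh_of_sup (hu : UpperSemicontinuousOn u U) (hb : LB u U) (h : ∀ z ∈ U, ∀ t < u z,
    ∃ v, Psh v U ∧ LB v U ∧ (∀ z' ∈ U, v z' ≤ u z') ∧ t < v z) : Psh u U := by
  refine ⟨hu, fun z w hw => le_of_forall_lt fun t ht => ?_⟩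
  obtain ⟨v, h1, h2, h3, h4⟩ := h z (disc_mem hw) t ht
  exact h4.trans_le ((h1.2 z w hw).trans (avg_le h1.1 h2 hu hb h3 (by rwa [abs_one])))

theorem lpsh_of_sup (hu : UpperSemicontinuousOn P U) (h0 : ∀ z ∈ U, 0 ≤ P z) (h : ∀ z ∈ U,
    ∀ t < P z, 0 ≤ t → ∃ Q, LPsh Q U ∧ (∀ z' ∈ U, Q z' ≤ P z') ∧ t < Q z) : LPsh P U := by
  refine ⟨h0, fun T => psh_of_sup (usc_map hu (lg_cont T) (lg_mono T)) (lb_lg T P U)
    fun z hz t ht => ?_⟩
  rcases lt_or_ge t (-T) with e | e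
  · exact ⟨fun _ => -T, psh_const _ _, lb_const _ _, fun _ _ => le_lg _ _, e⟩
  · obtain ⟨Q, h1, h2, h3⟩ := h z hz (exp t) (not_le.1 fun h => ht.not_ge (lg_le_iff.2 ⟨h, e⟩))
      (exp_pos t).le
    exact ⟨_, h1.2 T, lb_lg T Q U, fun y hy => lg_mono T (h2 y hy),
      not_le.1 fun h => h3.not_ge (lg_le_iff.1 h).1⟩

/-- one-sided limits -/
theorem psh_of_lim' {ι : Type} {𝓕 : Filter ι} [𝓕.NeBot] [𝓕.IsCountablyGenerated] {f : ι → W → ℝ}
    (hu : UpperSemicontinuousOn u U) (hb : LB u U) (hf : ∀ᶠ i in 𝓕, Psh (f i) U ∧ LB (f i) U)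
    (bd : ∀ K ⊆ U, IsCompact K → ∃ M, ∀ᶠ i in 𝓕, ∀ z ∈ K, f i z ≤ M)
    (ht : ∀ z ∈ U, ∀ t > u z, ∀ᶠ i in 𝓕, f i z < t)
    (ht' : ∀ z ∈ U, ∀ t < u z, ∃ᶠ i in 𝓕, t < f i z) : Psh u U := by
  refine ⟨hu, fun z w hw => le_of_forall_pos_le_add fun ε hε => le_of_forall_lt fun t h => ?_⟩
  have hm : ∀ ζ ∈ sphere (0 : ℂ) |1|, ‖ζ‖ ≤ 1 := fun ζ hζ => le_of_eq (by simpa using hζ)
  obtain ⟨M, hM⟩ := bd _ (by rintro _ ⟨ζ, hζ, rfl⟩; exact hw ζ (mem_closedBall_zero_iff.1 hζ))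
    (Z.disc_compact z w)
  obtain ⟨i, h1, h2, h3⟩ := ((ht' z (disc_mem hw) t h).and_eventually (hf.and (fatou_circle
    (v := fun i (ζ : ℂ) => f i (z + ζ • w)) (M := M) (line_int₁ hu hb hw) ((hf.and hM).mono fun i hi =>
      ⟨line_int₁ hi.1.1.1 hi.1.2 hw, fun ζ hζ => hi.2 _ ⟨ζ, mem_closedBall_zero_iff.2 (hm ζ hζ), rfl⟩⟩)
    (fun ζ hζ => ht _ (hw ζ (hm ζ hζ))) hε))).exists
  exact h1.trans_le ((h2.1.2 z w hw).trans h3)

theorem psh_of_lim {ι : Type} {𝓕 : Filter ι} [𝓕.NeBot] [𝓕.IsCountablyGenerated] {f : ι → W → ℝ}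
    (hu : UpperSemicontinuousOn u U) (hb : LB u U) (hf : ∀ᶠ i in 𝓕, Psh (f i) U ∧ LB (f i) U)
    (bd : ∀ K ⊆ U, IsCompact K → ∃ M, ∀ᶠ i in 𝓕, ∀ z ∈ K, f i z ≤ M)
    (ht : ∀ z ∈ U, Tendsto (fun i => f i z) 𝓕 (𝓝 (u z))) : Psh u U :=
  psh_of_lim' hu hb hf bd (fun z hz t h => (ht z hz).eventually (gt_mem_nhds h))
    fun z hz t h => ((ht z hz).eventually (lt_mem_nhds h)).frequently

theorem lpsh_of_lim {ι : Type} {𝓕 : Filter ι} [𝓕.NeBot] [𝓕.IsCountablyGenerated] {f : ι → W → ℝ}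
    (hu : UpperSemicontinuousOn P U) (hf : ∀ᶠ i in 𝓕, LPsh (f i) U)
    (bd : ∀ K ⊆ U, IsCompact K → ∃ M, ∀ᶠ i in 𝓕, ∀ z ∈ K, f i z ≤ M)
    (ht : ∀ z ∈ U, Tendsto (fun i => f i z) 𝓕 (𝓝 (P z))) : LPsh P U :=
  ⟨fun z hz => ge_of_tendsto (ht z hz) (hf.mono fun _ h => h.1 z hz), fun T =>
    psh_of_lim (f := fun i z => lg T (f i z)) (usc_map hu (lg_cont T) (lg_mono T)) (lb_lg T P U)
      (hf.mono fun i h => ⟨h.2 T, lb_lg T _ U⟩) (fun K h1 h2 => (bd K h1 h2).elim fun M hM =>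
        ⟨lg T M, hM.mono fun _ h z hz => lg_mono T (h z hz)⟩)
      fun z hz => ((lg_cont T).tendsto _).comp (ht z hz)⟩

/-- the maximum principle -/
theorem Psh.le_of_frontier [Nontrivial W] (h : Psh u U) (hb : LB u U) (hK : IsCompact K)
    (hKU : K ⊆ U) (hM : ∀ z ∈ frontier K, u z ≤ M) : ∀ z ∈ K, u z ≤ M := by
  intro z hz
  obtain ⟨w, hw⟩ := exists_ne (0 : W)
  have hc : Continuous fun ζ : ℂ => z + ζ • w := by fun_prop
  obtain ⟨b, hb⟩ := hb.bdd hK hKU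
  simpa using F0.max_one (h := fun ζ : ℂ => u (z + ζ • w)) (M := M)
    (((Homeomorph.addLeft z).isClosedEmbedding.comp
      (isClosedEmbedding_smul_left (𝕜 := ℂ) hw)).isCompact_preimage hK)
    (h.1.comp hc.continuousOn fun ζ hζ => hKU hζ) (fun ζ hζ => hb _ hζ)
    (fun c hc η hη => (F0.ev_sub hc).mono fun r hr => by
      rw [← circleAverage_map_add_const]
      refine le_add_of_le_of_nonneg ?_ (by positivity)
      simpa only [add_smul, add_assoc, add_comm (c • w)] using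
        h.le_circle (z := z + c • w) (w := w) (r := r) fun ζ hζ => by
          simpa [add_smul, add_assoc] using hKU (hr (a := c + ζ) (by simpa using hζ)))
    (fun ζ h1 h2 => hM _ ⟨subset_closure h1, fun h3 =>
      h2 (hc.continuousAt.preimage_mem_nhds (mem_interior_iff_mem_nhds.1 h3))⟩) 0 (by simpa using hz)

end Vale.Agent.P284Z
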